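import Crest.Agent.R211.Area
import Crest.Agent.R211.CoverArith

-- ▼ part R211/K0
section

set_option autoImplicit false
open MeasureTheory
open scoped ENNReal

namespace Crest.Agent.R211

/-- The standard regular tetrahedron of edge length 2. -/
abbrev K0 : Set E3 :=
  convexHull ℝ {!₂[1, 0, 0], !₂[-1, 0, 0], !₂[0, 1, Real.sqrt 2], !₂[0, -1, Real.sqrt 2]}

end Crest.Agent.R211
end

-- ▼ part R211/CoverSum
section

set_option autoImplicit false

namespace Crest.Agent.R211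

/-- squared speed -/
noncomputable def qq (n i : ℕ) : ℝ := (wy n i) ^ 2 + 2 * (wz n i) ^ 2

/-- rescaled base area of the `i`-th cylinder -/
noncomputable def pieceArea (n i : ℕ) : ℝ := RR n i ^ 2 / n / Real.sqrt (1 + qq n i)

noncomputable def FF (t : ℝ) : ℝ := (7 * t ^ 5 / 5 - 2 * t ^ 3 / 3 - t) / 32

theorem inv_sqrt_bound (q : ℝ) (hq : 0 ≤ q) (hq1 : q ≤ 1) :
    1 / Real.sqrt (1 + q) ≤ 1 - q / 2 + q ^ 2 / 2 := by
  have h1 : 1 + q / 2 - q ^ 2 / 8 ≤ Real.sqrt (1 + q) := by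
    apply Real.le_sqrt_of_sq_le
    nlinarith [pow_nonneg hq 3, mul_nonneg (pow_nonneg hq 3) (sub_nonneg.mpr hq1)]
  have h2 : 0 < Real.sqrt (1 + q) := Real.sqrt_pos.mpr (by linarith)
  rw [div_le_iff₀ h2]
  have h3 : 0 ≤ 1 - q / 2 + q ^ 2 / 2 := by nlinarith
  calc (1 : ℝ) ≤ (1 - q / 2 + q ^ 2 / 2) * (1 + q / 2 - q ^ 2 / 8) := by
        nlinarith [pow_nonneg hq 3, mul_nonneg (pow_nonneg hq 3) (sub_nonneg.mpr hq1)]
    _ ≤ _ := mul_le_mul_of_nonneg_left h1 h3

theorem piece_bound (n i : ℕ) (hn : 1000000 ≤ n) (hi : i < n) :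
    pieceArea n i ≤ (1 / n : ℝ) * (1 / 4 + 401 / 10 ^ 11) +
      (ep ^ 2 / 2) * (FF (tt n (i + 1)) - FF (tt n i)) := by
  have hn0 : 0 < n := by omega
  have hnR : (1000000 : ℝ) ≤ n := by exact_mod_cast hn
  have hnpos : (0 : ℝ) < n := by linarith
  have hh : (1 : ℝ) / n ≤ 1 / 1000000 := one_div_le_one_div_of_le (by norm_num) hnR
  have hhpos : (0 : ℝ) < 1 / n := by positivity
  have hep : ep = 1 / 1000 := rfl
  have hc := abs_cc_le n i hi
  have ht : tt n i = cc n i - 1 / n := by rw [cc_eq_tt_add]; ring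
  have ht' : tt n (i + 1) = cc n i + 1 / n := tt_succ n i
  unfold pieceArea
  rw [ht, ht']
  have hR : RR n i = 1 / 2 + (ep ^ 2 * ((cc n i) ^ 2 + (cc n i) ^ 4) / 4 + 3 * ep ^ 3 + ep * (1 / n)) := by
    unfold RR; ring
  have hq : qq n i = ep ^ 2 * (((cc n i) ^ 2 + 1 - (1 / n) ^ 2) ^ 2 / 4 + 2 * (cc n i) ^ 2) := by
    unfold qq wy wz; ring
  rw [hR, hq, div_div, mul_comm (n : ℝ), ← div_div, div_eq_mul_one_div _ (n : ℝ), mul_comm _ (1 / (n : ℝ))]
  set c := cc n i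
  set h : ℝ := 1 / n with hhdef
  rw [hep]
  have hc' := abs_le.mp hc
  have hc2 : c ^ 2 ≤ 1 := by rw [← sq_abs]; exact pow_le_one₀ (abs_nonneg _) hc
  have hc0 : 0 ≤ c ^ 2 := sq_nonneg _
  have hc4 : c ^ 4 ≤ 1 := by
    have : c ^ 4 = (c ^ 2) ^ 2 := by ring
    rw [this]; exact pow_le_one₀ hc0 hc2
  have hc40 : 0 ≤ c ^ 4 := by positivity
  have hh2 : h ^ 2 ≤ 1 / 10 ^ 12 := by
    calc h ^ 2 ≤ (1 / 1000000) ^ 2 := pow_le_pow_left₀ hhpos.le hh 2
      _ = 1 / 10 ^ 12 := by norm_num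
  have hh20 : 0 ≤ h ^ 2 := sq_nonneg _
  -- kappa bounds
  set κ : ℝ := (c ^ 2 + 1 - h ^ 2) ^ 2 / 4 + 2 * c ^ 2 with hκ
  have hκ0 : 0 ≤ κ := by positivity
  have hκ3 : κ ≤ 3 := by
    have h1 : 0 ≤ c ^ 2 + 1 - h ^ 2 := by linarith
    have h2 : (c ^ 2 + 1 - h ^ 2) ^ 2 ≤ 2 ^ 2 := pow_le_pow_left₀ h1 (by linarith) 2
    rw [hκ]; linarith
  have hκl : (c ^ 2 + 1) ^ 2 / 4 + 2 * c ^ 2 - h ^ 2 ≤ κ := by
    have : κ = (c ^ 2 + 1) ^ 2 / 4 + 2 * c ^ 2 - h ^ 2 * (c ^ 2 + 1) / 2 + (h ^ 2) ^ 2 / 4 := by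
      rw [hκ]; ring
    rw [this]
    have : h ^ 2 * (c ^ 2 + 1) ≤ h ^ 2 * 2 := mul_le_mul_of_nonneg_left (by linarith) hh20
    linarith [sq_nonneg (h ^ 2)]
  set q : ℝ := (1 / 1000) ^ 2 * κ with hqdef
  have hq0 : 0 ≤ q := by positivity
  have hq1 : q ≤ 3 / 10 ^ 6 := by rw [hqdef]; linarith
  have hs := inv_sqrt_bound q hq0 (by linarith)
  set a : ℝ := (1 / 1000) ^ 2 * (c ^ 2 + c ^ 4) / 4 + 3 * (1 / 1000) ^ 3 + 1 / 1000 * h with ha
  have ha0 : 0 ≤ a := by positivity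
  have ha1 : a ≤ 6 / 10 ^ 7 := by rw [ha]; linarith
  have ha2 : a ^ 2 ≤ 36 / 10 ^ 14 := by
    calc a ^ 2 ≤ (6 / 10 ^ 7) ^ 2 := pow_le_pow_left₀ ha0 ha1 2
      _ = 36 / 10 ^ 14 := by norm_num
  have hq2 : q ^ 2 ≤ 9 / 10 ^ 12 := by
    calc q ^ 2 ≤ (3 / 10 ^ 6) ^ 2 := pow_le_pow_left₀ hq0 hq1 2
      _ = 9 / 10 ^ 12 := by norm_num
  have hR2 : (1 / 2 + a) ^ 2 = 1 / 4 + a + a ^ 2 := by ring
  have hmain : (1 / 2 + a) ^ 2 * (1 / Real.sqrt (1 + q)) ≤
      1 / 4 + a - q / 8 + 2 / 10 ^ 12 * 1 + 36 / 10 ^ 14 := by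
    have hR2le : (1 / 2 + a) ^ 2 ≤ 3 / 10 := by rw [hR2]; linarith
    have hR2ge : 1 / 4 ≤ (1 / 2 + a) ^ 2 := by rw [hR2]; linarith [sq_nonneg a]
    calc (1 / 2 + a) ^ 2 * (1 / Real.sqrt (1 + q))
        ≤ (1 / 2 + a) ^ 2 * (1 - q / 2 + q ^ 2 / 2) :=
          mul_le_mul_of_nonneg_left hs (sq_nonneg _)
      _ = (1 / 2 + a) ^ 2 - (1 / 2 + a) ^ 2 * q / 2 + (1 / 2 + a) ^ 2 * q ^ 2 / 2 := by ring
      _ ≤ (1 / 2 + a) ^ 2 - (1 / 4) * q / 2 + (3 / 10) * q ^ 2 / 2 := by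
          have h1 := mul_le_mul_of_nonneg_right hR2ge hq0
          have h2 := mul_le_mul_of_nonneg_right hR2le (sq_nonneg q)
          linarith
      _ ≤ _ := by rw [hR2]; linarith
  have hF : FF (c + h) - FF (c - h) =
      h * (2 * ((7 * c ^ 4 - 2 * c ^ 2 - 1) / 32 + (14 * c ^ 2 * h ^ 2 + 7 * h ^ 4 / 5 - 2 * h ^ 2 / 3) / 32)) := by
    unfold FF; ring
  rw [hF]
  have hFl : (7 * c ^ 4 - 2 * c ^ 2 - 1) / 32 - h ^ 2 / 48 ≤
      ((7 * c ^ 4 - 2 * c ^ 2 - 1) / 32 + (14 * c ^ 2 * h ^ 2 + 7 * h ^ 4 / 5 - 2 * h ^ 2 / 3) / 32) := by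
    have : 0 ≤ 14 * c ^ 2 * h ^ 2 + 7 * h ^ 4 / 5 := by positivity
    linarith
  have hfin : (1 / 2 + a) ^ 2 / Real.sqrt (1 + q) ≤ (1 / 4 + 401 / 10 ^ 11) + ((1 / 1000) ^ 2 / 2) *
      (2 * ((7 * c ^ 4 - 2 * c ^ 2 - 1) / 32 + (14 * c ^ 2 * h ^ 2 + 7 * h ^ 4 / 5 - 2 * h ^ 2 / 3) / 32)) := by
    rw [div_eq_mul_one_div]
    refine hmain.trans ?_
    have e1 : a - q / 8 ≤ (1 / 1000) ^ 2 * ((7 * c ^ 4 - 2 * c ^ 2 - 1) / 32) +
        (1 / 1000) ^ 2 * (h ^ 2 / 8) + 3 * (1 / 1000) ^ 3 + 1 / 1000 * h := by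
      rw [ha, hqdef]
      have : (c ^ 2 + 1) ^ 2 = c ^ 4 + 2 * c ^ 2 + 1 := by ring
      rw [this] at hκl
      linarith
    linarith
  calc _ = h * ((1 / 2 + a) ^ 2 / Real.sqrt (1 + q)) := by ring
    _ ≤ h * _ := mul_le_mul_of_nonneg_left hfin hhpos.le
    _ = _ := by ring

theorem area_sum (n : ℕ) (hn : 1000000 ≤ n) :
    ∑ i ∈ Finset.range n, pieceArea n i ≤ 1 / 4 - 4 / 10 ^ 9 := by
  have hn0 : 0 < n := by omega
  have hnpos : (0 : ℝ) < n := by exact_mod_cast hn0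
  calc ∑ i ∈ Finset.range n, pieceArea n i
      ≤ ∑ i ∈ Finset.range n, ((1 / n : ℝ) * (1 / 4 + 401 / 10 ^ 11) +
      (ep ^ 2 / 2) * (FF (tt n (i + 1)) - FF (tt n i))) :=
        Finset.sum_le_sum fun i hi => piece_bound n i hn (Finset.mem_range.mp hi)
    _ = (1 / 4 + 401 / 10 ^ 11) + (ep ^ 2 / 2) * (FF 1 - FF (-1)) := by
        rw [Finset.sum_add_distrib, ← Finset.mul_sum, ← Finset.mul_sum, Finset.sum_const,
          Finset.card_range,
          Finset.sum_range_sub (fun i => FF (tt n i)), tt_zero, tt_last n hn0, nsmul_eq_mul]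
        field_simp
    _ ≤ 1 / 4 - 4 / 10 ^ 9 := by
        unfold FF ep; norm_num

end Crest.Agent.R211
end

-- ▼ part R211/Cover
section

/-! Explicit cover of the standard regular tetrahedron by triangular cylinders. -/

set_option autoImplicit false
open MeasureTheory
open scoped ENNReal

namespace Crest.Agent.R211

/-- Membership in a cylinder over a projected triangle. -/
theorem mem_cyl {v A B C x : E3} (hv : 0 < ‖v‖) {α β τ : ℝ} (hα : 0 ≤ α) (hβ : 0 ≤ β)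
    (hαβ : α + β ≤ 1) (hx : x = A + (α • (B - A) + β • (C - A)) + τ • v) :
    ∃ b ∈ convexHull ℝ {proj (‖v‖⁻¹ • v) A, proj (‖v‖⁻¹ • v) B, proj (‖v‖⁻¹ • v) C},
      ∃ t : ℝ, x = b + t • (‖v‖⁻¹ • v) := by
  have h : x ∈ {x : E3 | ∃ b ∈ convexHull ℝ {A, B, C}, ∃ t : ℝ, x = b + t • (‖v‖⁻¹ • v)} := by
    refine ⟨A + (α • (B - A) + β • (C - A)), ?_, τ * ‖v‖, ?_⟩
    · rw [convexHull_triple_eq_image]
      refine ⟨!₂[α, β], ⟨by simpa using hα, by simpa using hβ, by simpa using hαβ⟩, ?_⟩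
      simp
    · rw [smul_smul, mul_assoc, mul_inv_cancel₀ hv.ne', mul_one]; exact hx
  rw [← cylinder_proj, image_proj_convexHull] at h
  exact h

/-- Area of the base of a cylinder over a projected triangle. -/
theorem area_cyl {v A B C : E3} (hv : 0 < ‖v‖) :
    (μHE[2] (convexHull ℝ ({proj (‖v‖⁻¹ • v) A, proj (‖v‖⁻¹ • v) B,
      proj (‖v‖⁻¹ • v) C} : Set E3))).toReal = |det3 (B - A) (C - A) v| / ‖v‖ / 2 := by
  rw [muHE_triangle, ← map_sub, ← map_sub, gramArea_proj (norm_unit hv),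
    ENNReal.toReal_ofReal (by positivity)]
  have h : det3 (B - A) (C - A) (‖v‖⁻¹ • v) = ‖v‖⁻¹ * det3 (B - A) (C - A) v := by
    simp only [det3, PiLp.smul_apply, smul_eq_mul]; ring
  rw [h, abs_mul, abs_of_pos (inv_pos.mpr hv)]
  ring

/-- The tetrahedron in rescaled coordinates. -/
theorem K0_bounds {x : E3} (hx : x ∈ K0) :
    |x 0| ≤ 1 - x 2 / Real.sqrt 2 ∧ |x 1| ≤ x 2 / Real.sqrt 2 := by
  have hs : 0 < Real.sqrt 2 := by positivity
  have hconv : Convex ℝ {x : E3 | |x 0| ≤ 1 - x 2 / Real.sqrt 2 ∧ |x 1| ≤ x 2 / Real.sqrt 2} := by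
    intro a ha b hb s t hs0 ht0 hst
    obtain ⟨ha1, ha2⟩ := ha
    obtain ⟨hb1, hb2⟩ := hb
    simp only [Set.mem_ofPred_eq, PiLp.add_apply, PiLp.smul_apply, smul_eq_mul]
    constructor
    · calc |s * a 0 + t * b 0| ≤ |s * a 0| + |t * b 0| := abs_add_le _ _
        _ = s * |a 0| + t * |b 0| := by rw [abs_mul, abs_mul, abs_of_nonneg hs0, abs_of_nonneg ht0]
        _ ≤ s * (1 - a 2 / Real.sqrt 2) + t * (1 - b 2 / Real.sqrt 2) :=
            add_le_add (mul_le_mul_of_nonneg_left ha1 hs0) (mul_le_mul_of_nonneg_left hb1 ht0)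
        _ = (s + t) - (s * a 2 + t * b 2) / Real.sqrt 2 := by ring
        _ = _ := by rw [hst]
    · calc |s * a 1 + t * b 1| ≤ |s * a 1| + |t * b 1| := abs_add_le _ _
        _ = s * |a 1| + t * |b 1| := by rw [abs_mul, abs_mul, abs_of_nonneg hs0, abs_of_nonneg ht0]
        _ ≤ s * (a 2 / Real.sqrt 2) + t * (b 2 / Real.sqrt 2) :=
            add_le_add (mul_le_mul_of_nonneg_left ha2 hs0) (mul_le_mul_of_nonneg_left hb2 ht0)
        _ = _ := by ring
  refine convexHull_min ?_ hconv hx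
  intro y hy
  simp only [Set.mem_insert_iff, Set.mem_singleton_iff] at hy
  have h2 : Real.sqrt 2 / Real.sqrt 2 = 1 := div_self hs.ne'
  rcases hy with rfl | rfl | rfl | rfl <;> simp

/-- directions of the lower cylinders -/
noncomputable def vb (n i : ℕ) : E3 := !₂[1, wy n i, Real.sqrt 2 * wz n i]
/-- directions of the upper cylinders -/
noncomputable def vt (n i : ℕ) : E3 := !₂[-wy n i, 1, -(Real.sqrt 2 * wz n i)]
/-- second vertex of the lower triangles -/
noncomputable def Bb (n i : ℕ) : E3 := !₂[0, RR n i * tt n i, Real.sqrt 2 * RR n i]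
/-- third vertex of the lower triangles -/
noncomputable def Cb (n i : ℕ) : E3 := !₂[0, RR n i * tt n (i + 1), Real.sqrt 2 * RR n i]
/-- apex of the upper triangles -/
noncomputable def At : E3 := !₂[0, 0, Real.sqrt 2]
/-- second vertex of the upper triangles -/
noncomputable def Bt (n i : ℕ) : E3 :=
  !₂[-(RR n i * tt n i), 0, Real.sqrt 2 - Real.sqrt 2 * RR n i]
/-- third vertex of the upper triangles -/
noncomputable def Ct (n i : ℕ) : E3 :=
  !₂[-(RR n i * tt n (i + 1)), 0, Real.sqrt 2 - Real.sqrt 2 * RR n i]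


theorem qq_nonneg (n i : ℕ) : 0 ≤ qq n i := by unfold qq; positivity

theorem norm_vb (n i : ℕ) : ‖vb n i‖ = Real.sqrt (1 + qq n i) := by
  rw [← Real.sqrt_sq (norm_nonneg (vb n i)), norm_sq_E3]
  congr 1
  simp [vb, qq, mul_pow]; ring

theorem norm_vt (n i : ℕ) : ‖vt n i‖ = Real.sqrt (1 + qq n i) := by
  rw [← Real.sqrt_sq (norm_nonneg (vt n i)), norm_sq_E3]
  congr 1
  simp [vt, qq, mul_pow]; ring

theorem norm_vb_pos (n i : ℕ) : 0 < ‖vb n i‖ := by
  rw [norm_vb]; exact Real.sqrt_pos.mpr (by linarith [qq_nonneg n i])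

theorem norm_vt_pos (n i : ℕ) : 0 < ‖vt n i‖ := by
  rw [norm_vt]; exact Real.sqrt_pos.mpr (by linarith [qq_nonneg n i])

theorem tt_diff (n i : ℕ) : tt n (i + 1) - tt n i = 2 / n := by
  rw [tt_succ, cc_eq_tt_add]; ring

theorem RR_pos (n i : ℕ) : 0 < RR n i := by
  unfold RR ep; positivity

theorem area_b (n i : ℕ) :
    |det3 (Bb n i - 0) (Cb n i - 0) (vb n i)| / ‖vb n i‖ / 2 = Real.sqrt 2 * pieceArea n i := by
  have h : det3 (Bb n i - 0) (Cb n i - 0) (vb n i) = -(Real.sqrt 2 * RR n i ^ 2 * (2 / n)) := by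
    rw [← tt_diff n i]
    simp [det3, Bb, Cb, vb]; ring
  rw [h, norm_vb, abs_neg, abs_of_nonneg (by positivity), pieceArea]
  ring

theorem area_t (n i : ℕ) :
    |det3 (Bt n i - At) (Ct n i - At) (vt n i)| / ‖vt n i‖ / 2 = Real.sqrt 2 * pieceArea n i := by
  have h : det3 (Bt n i - At) (Ct n i - At) (vt n i) = Real.sqrt 2 * RR n i ^ 2 * (2 / n) := by
    rw [← tt_diff n i]
    simp [det3, Bt, Ct, At, vt]; ring
  rw [h, norm_vt, abs_of_nonneg (by positivity), pieceArea]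
  ring

/-- the barycentric weights -/
theorem weights {t t' h R y z : ℝ} (ht : t' - t = 2 * h) (hh : 0 < h) (hR : 0 < R)
    (h1 : t * z ≤ y) (h2 : y ≤ t' * z) (h3 : z ≤ R) :
    ∃ α β : ℝ, 0 ≤ α ∧ 0 ≤ β ∧ α + β ≤ 1 ∧ (α + β) * R = z ∧ (α * t + β * t') * R = y := by
  refine ⟨(t' * z - y) / (2 * h * R), (y - t * z) / (2 * h * R),
    div_nonneg (by linarith) (by positivity), div_nonneg (by linarith) (by positivity), ?_, ?_, ?_⟩
  · rw [← add_div, div_le_one (by positivity)]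
    have : t' * z - y + (y - t * z) = 2 * h * z := by rw [← ht]; ring
    rw [this]
    exact mul_le_mul_of_nonneg_left h3 (by positivity)
  · rw [← add_div]
    have : t' * z - y + (y - t * z) = 2 * h * z := by rw [← ht]; ring
    rw [this]; field_simp
  · have : (t' * z - y) * t + (y - t * z) * t' = 2 * h * y := by
      rw [← ht]; ring
    field_simp
    linarith

theorem mem_lower (n i : ℕ) (hn : 0 < n) (x : E3)
    (h1 : tt n i * (x 2 / Real.sqrt 2 - x 0 * wz n i) ≤ x 1 - x 0 * wy n i)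
    (h2 : x 1 - x 0 * wy n i ≤ tt n (i + 1) * (x 2 / Real.sqrt 2 - x 0 * wz n i))
    (h3 : x 2 / Real.sqrt 2 - x 0 * wz n i ≤ RR n i) :
    ∃ b ∈ convexHull ℝ {proj (‖vb n i‖⁻¹ • vb n i) 0, proj (‖vb n i‖⁻¹ • vb n i) (Bb n i),
      proj (‖vb n i‖⁻¹ • vb n i) (Cb n i)}, ∃ t : ℝ, x = b + t • (‖vb n i‖⁻¹ • vb n i) := by
  have hs : Real.sqrt 2 ≠ 0 := by positivity
  have hnR : (0 : ℝ) < n := by exact_mod_cast hn
  obtain ⟨α, β, hα, hβ, hαβ, e1, e2⟩ := weights (h := 1 / n) (by rw [tt_diff]; ring)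
    (by positivity) (RR_pos n i) h1 h2 h3
  refine mem_cyl (norm_vb_pos n i) hα hβ hαβ (τ := x 0) ?_
  ext k
  fin_cases k
  · simp [Bb, Cb, vb]
  · simp [Bb, Cb, vb]
    linarith
  · have hx2 : x 2 = Real.sqrt 2 * (x 2 / Real.sqrt 2) := by field_simp
    simp [Bb, Cb, vb]
    rw [hx2]
    have : x 2 / Real.sqrt 2 = (α + β) * RR n i + x 0 * wz n i := by linarith
    rw [this]; ring

theorem mem_upper (n i : ℕ) (hn : 0 < n) (x : E3)
    (h1 : tt n i * ((1 - x 2 / Real.sqrt 2) - x 1 * wz n i) ≤ -x 0 - x 1 * wy n i)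
    (h2 : -x 0 - x 1 * wy n i ≤ tt n (i + 1) * ((1 - x 2 / Real.sqrt 2) - x 1 * wz n i))
    (h3 : (1 - x 2 / Real.sqrt 2) - x 1 * wz n i ≤ RR n i) :
    ∃ b ∈ convexHull ℝ {proj (‖vt n i‖⁻¹ • vt n i) At, proj (‖vt n i‖⁻¹ • vt n i) (Bt n i),
      proj (‖vt n i‖⁻¹ • vt n i) (Ct n i)}, ∃ t : ℝ, x = b + t • (‖vt n i‖⁻¹ • vt n i) := by
  have hs : Real.sqrt 2 ≠ 0 := by positivity
  have hnR : (0 : ℝ) < n := by exact_mod_cast hn
  obtain ⟨α, β, hα, hβ, hαβ, e1, e2⟩ := weights (h := 1 / n) (by rw [tt_diff]; ring)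
    (by positivity) (RR_pos n i) h1 h2 h3
  refine mem_cyl (norm_vt_pos n i) hα hβ hαβ (τ := x 1) ?_
  ext k
  fin_cases k
  · simp [Bt, Ct, At, vt]
    linarith
  · simp [Bt, Ct, At, vt]
  · have hx2 : x 2 = Real.sqrt 2 * (x 2 / Real.sqrt 2) := by field_simp
    simp [Bt, Ct, At, vt]
    rw [hx2]
    have : x 2 / Real.sqrt 2 = 1 - ((α + β) * RR n i + x 1 * wz n i) := by linarith
    rw [this]; ring

/-- The explicit finite cover of the standard tetrahedron by triangular cylinders. -/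
theorem exists_cover :
    ∃ (m : ℕ) (u p q r : Fin m → E3), m + 1 ≤ 16000000 ∧
      (∀ i, ‖u i‖ = 1) ∧
      (∀ i, inner ℝ (p i) (u i) = 0 ∧ inner ℝ (q i) (u i) = 0 ∧ inner ℝ (r i) (u i) = 0) ∧
      K0 ⊆ ⋃ i, {x : E3 | ∃ b ∈ convexHull ℝ {p i, q i, r i}, ∃ t : ℝ, x = b + t • u i} ∧
      ∑ i, (μHE[2] (convexHull ℝ ({p i, q i, r i} : Set E3))).toReal ≤
        Real.sqrt 2 * (1 / 2 - 6 / 10 ^ 10) := by
  obtain ⟨n, hn⟩ : ∃ n : ℕ, n = 1000000 := ⟨_, rfl⟩
  have hn0 : 0 < n := by omega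
  let w : Fin n ⊕ Fin n → E3 := Sum.elim (fun i => vb n i) (fun i => vt n i)
  have hwpos : ∀ i, 0 < ‖w i‖ := by
    rintro (i | i)
    · exact norm_vb_pos n i
    · exact norm_vt_pos n i
  let A : Fin n ⊕ Fin n → E3 := Sum.elim (fun _ => 0) (fun _ => At)
  let B : Fin n ⊕ Fin n → E3 := Sum.elim (fun i => Bb n i) (fun i => Bt n i)
  let C : Fin n ⊕ Fin n → E3 := Sum.elim (fun i => Cb n i) (fun i => Ct n i)
  let u : Fin n ⊕ Fin n → E3 := fun i => ‖w i‖⁻¹ • w i
  let e := (finSumFinEquiv (m := n) (n := n)).symm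
  refine ⟨n + n, fun i => u (e i), fun i => proj (u (e i)) (A (e i)),
    fun i => proj (u (e i)) (B (e i)), fun i => proj (u (e i)) (C (e i)), by omega, ?_, ?_, ?_, ?_⟩
  · intro i
    exact norm_unit (hwpos _)
  · intro i
    exact ⟨inner_proj (norm_unit (hwpos _)) _, inner_proj (norm_unit (hwpos _)) _,
      inner_proj (norm_unit (hwpos _)) _⟩
  · intro x hx
    obtain ⟨hx1, hx2⟩ := K0_bounds hx
    rw [Set.mem_iUnion]
    rcases cov_or n (by omega) (x 0) (x 1) (x 2 / Real.sqrt 2) hx1 hx2 with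
      ⟨i, hi, h1, h2, h3⟩ | ⟨i, hi, h1, h2, h3⟩
    · refine ⟨e.symm (Sum.inl ⟨i, hi⟩), ?_⟩
      rw [Set.mem_ofPred_eq]
      simp only [Equiv.apply_symm_apply]
      exact mem_lower n i hn0 x h1 h2 h3
    · refine ⟨e.symm (Sum.inr ⟨i, hi⟩), ?_⟩
      rw [Set.mem_ofPred_eq]
      simp only [Equiv.apply_symm_apply]
      exact mem_upper n i hn0 x h1 h2 h3
  · have hsum : ∑ i : Fin (n + n), (μHE[2] (convexHull ℝ ({proj (u (e i)) (A (e i)),
        proj (u (e i)) (B (e i)), proj (u (e i)) (C (e i))} : Set E3))).toReal =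
        ∑ j : Fin n ⊕ Fin n, (μHE[2] (convexHull ℝ ({proj (u j) (A j),
        proj (u j) (B j), proj (u j) (C j)} : Set E3))).toReal :=
      Equiv.sum_comp e (fun j => (μHE[2] (convexHull ℝ ({proj (u j) (A j),
        proj (u j) (B j), proj (u j) (C j)} : Set E3))).toReal)
    rw [hsum, Fintype.sum_sum_type]
    have hb : ∀ i : Fin n, (μHE[2] (convexHull ℝ ({proj (u (Sum.inl i)) (A (Sum.inl i)),
        proj (u (Sum.inl i)) (B (Sum.inl i)), proj (u (Sum.inl i)) (C (Sum.inl i))} : Set E3))).toReal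
        = Real.sqrt 2 * pieceArea n i := fun i => by
      rw [← area_b n i]; exact area_cyl (norm_vb_pos n i)
    have ht : ∀ i : Fin n, (μHE[2] (convexHull ℝ ({proj (u (Sum.inr i)) (A (Sum.inr i)),
        proj (u (Sum.inr i)) (B (Sum.inr i)), proj (u (Sum.inr i)) (C (Sum.inr i))} : Set E3))).toReal
        = Real.sqrt 2 * pieceArea n i := fun i => by
      rw [← area_t n i]; exact area_cyl (norm_vt_pos n i)
    simp only [hb, ht]
    rw [← Finset.mul_sum, Fin.sum_univ_eq_sum_range (fun i => pieceArea n i)]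
    have hA := area_sum n (by omega)
    have hs : 0 ≤ Real.sqrt 2 := Real.sqrt_nonneg _
    calc Real.sqrt 2 * ∑ i ∈ Finset.range n, pieceArea n i +
          Real.sqrt 2 * ∑ i ∈ Finset.range n, pieceArea n i
        = Real.sqrt 2 * (2 * ∑ i ∈ Finset.range n, pieceArea n i) := by ring
      _ ≤ _ := mul_le_mul_of_nonneg_left (by linarith) hs

end Crest.Agent.R211
end

-- ▼ part R211/Proj

/-! Projection lemma: every orthogonal projection of `K0` has area at least `√2`, with equality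
along the first coordinate axis; projections of bounded sets have finite area. -/

set_option autoImplicit false
open MeasureTheory
open scoped ENNReal

namespace Crest.Agent.R211

theorem proj_image_def (v : E3) (S : Set E3) :
    (fun y => y - inner ℝ y v • v) '' S = proj v '' S := rfl

/-! ### Triangles and pairs of triangles -/

/-- A projected triangle has area `|det| / 2`. -/
theorem muHE_proj_triangle {u : E3} (hu : ‖u‖ = 1) (p q r : E3) :
    μHE[2] (proj u '' convexHull ℝ {p, q, r}) =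
      ENNReal.ofReal (|det3 (q - p) (r - p) u| / 2) := by
  rw [image_proj_convexHull, muHE_triangle, ← map_sub, ← map_sub, gramArea_proj hu]

theorem volume_line : volume {x : E2 | x 1 = 0} = 0 := by
  have h : {x : E2 | x 1 = 0} = (fun p : E2 => ((p 0, p 1) : ℝ × ℝ)) ⁻¹' (Set.univ ×ˢ {0}) := by
    ext p; simp
  rw [h, volume_E2_preimage _ (MeasurableSet.univ.prod (measurableSet_singleton 0)),
    Measure.volume_eq_prod, Measure.prod_prod]
  simp

theorem volume_stdTri_pos : volume (stdTri ∩ {x : E2 | 0 < x 1}) = ENNReal.ofReal (1 / 2) := by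
  have h : stdTri ∩ {x : E2 | 0 < x 1} = stdTri \ {x : E2 | x 1 = 0} := by
    ext x
    simp only [stdTri, Set.mem_inter_iff, Set.mem_ofPred_eq, Set.mem_sdiff]
    constructor
    · rintro ⟨h, h1⟩; exact ⟨h, h1.ne'⟩
    · rintro ⟨h, h1⟩; exact ⟨h, lt_of_le_of_ne h.2.1 (Ne.symm h1)⟩
  rw [h, measure_sdiff_null volume_line, volume_stdTri]

/-- The projected triangle `p q r` without the side `p q`. -/
def openTri (u p q r : E3) : Set E3 :=
  (fun x : E2 => proj u p + (x 0 • (proj u q - proj u p) + x 1 • (proj u r - proj u p))) ''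
    (stdTri ∩ {x : E2 | 0 < x 1})

theorem muHE_openTri {u : E3} (hu : ‖u‖ = 1) (p q r : E3) :
    μHE[2] (openTri u p q r) = ENNReal.ofReal (|det3 (q - p) (r - p) u| / 2) := by
  rw [openTri, muHE_image, volume_stdTri_pos, ← map_sub, ← map_sub, gramArea_proj hu,
    ← ENNReal.ofReal_mul (abs_nonneg _)]
  congr 1; ring

theorem openTri_subset (u p q r : E3) :
    openTri u p q r ⊆ proj u '' convexHull ℝ {p, q, r} := by
  rw [image_proj_convexHull, convexHull_triple_eq_image]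
  exact Set.image_mono Set.inter_subset_left

/-- the affine functional whose zero set is the projected line `p q` -/
def side (u p q x : E3) : ℝ := det3 (q - p) (x - p) u


theorem side_openTri {u p q r : E3} {y : E3} (hy : y ∈ openTri u p q r) :
    ∃ c : ℝ, 0 < c ∧ side u p q y = c * det3 (q - p) (r - p) u := by
  obtain ⟨x, ⟨-, hx⟩, rfl⟩ := hy
  refine ⟨x 1, hx, ?_⟩
  simp only [side, det3, proj_apply, PiLp.sub_apply, PiLp.smul_apply, PiLp.add_apply, smul_eq_mul]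
  ring

theorem continuous_side (u p q : E3) : Continuous (side u p q) := by
  unfold side det3
  fun_prop

/-- The projection of a convex set containing four points `p q r s` has area at least
`|det (q - p) (s - r) u| / 2`. -/
theorem le_muHE_proj_of_four {u : E3} (hu : ‖u‖ = 1) {K : Set E3} {p q r s : E3}
    (h1 : convexHull ℝ {p, q, r} ⊆ K) (h2 : convexHull ℝ {p, q, s} ⊆ K) :
    ENNReal.ofReal (|det3 (q - p) (s - r) u| / 2) ≤ μHE[2] (proj u '' K) := by
  have hA : ENNReal.ofReal (|det3 (q - p) (r - p) u| / 2) ≤ μHE[2] (proj u '' K) := by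
    rw [← muHE_proj_triangle hu]; exact measure_mono (Set.image_mono h1)
  have hB : ENNReal.ofReal (|det3 (q - p) (s - p) u| / 2) ≤ μHE[2] (proj u '' K) := by
    rw [← muHE_proj_triangle hu]; exact measure_mono (Set.image_mono h2)
  have hdet : det3 (q - p) (s - r) u = det3 (q - p) (s - p) u - det3 (q - p) (r - p) u := by
    simp only [det3, PiLp.sub_apply]; ring
  set D1 := det3 (q - p) (r - p) u with hD1
  set D2 := det3 (q - p) (s - p) u with hD2
  rw [hdet]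
  by_cases hs : 0 ≤ D1 * D2
  · -- same side
    rcases le_total |D1| |D2| with h | h
    · refine le_trans (ENNReal.ofReal_le_ofReal ?_) hB
      have : |D2 - D1| ≤ |D2| := by
        rw [← sq_le_sq]
        have := sq_le_sq.mpr h
        nlinarith
      linarith
    · refine le_trans (ENNReal.ofReal_le_ofReal ?_) hA
      have : |D2 - D1| ≤ |D1| := by
        rw [← sq_le_sq]
        have := sq_le_sq.mpr h
        nlinarith
      linarith
  · push Not at hs
    -- opposite sides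
    have hsum : |D2 - D1| = |D1| + |D2| := by
      rcases lt_or_ge 0 D1 with h | h
      · have h2 : D2 < 0 := by
          by_contra hc; push Not at hc
          exact absurd hs (not_lt.mpr (mul_nonneg h.le hc))
        rw [abs_of_pos h, abs_of_neg h2, abs_of_neg (by linarith)]; ring
      · have h1' : D1 < 0 := lt_of_le_of_ne h (by rintro h0; rw [h0, zero_mul] at hs; exact lt_irrefl _ hs)
        have h2 : 0 < D2 := by
          by_contra hc; push Not at hc
          exact absurd hs (not_lt.mpr (mul_nonneg_of_nonpos_of_nonpos h1'.le hc))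
        rw [abs_of_neg h1', abs_of_pos h2, abs_of_pos (by linarith)]; ring
    set H : Set E3 := {x | 0 < side u p q x * D1} with hH
    have hHo : IsOpen H := isOpen_lt continuous_const ((continuous_side u p q).mul continuous_const)
    have hT1 : openTri u p q r ⊆ (proj u '' K) ∩ H := by
      intro y hy
      refine ⟨Set.image_mono h1 (openTri_subset _ _ _ _ hy), ?_⟩
      obtain ⟨c, hc, hy'⟩ := side_openTri hy
      have hD1ne : D1 ≠ 0 := by rintro h0; rw [h0, zero_mul] at hs; exact lt_irrefl _ hs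
      show 0 < side u p q y * D1
      rw [hy', ← hD1, mul_assoc]
      exact mul_pos hc (mul_self_pos.mpr hD1ne)
    have hT2 : openTri u p q s ⊆ (proj u '' K) \ H := by
      intro y hy
      refine ⟨Set.image_mono h2 (openTri_subset _ _ _ _ hy), ?_⟩
      obtain ⟨c, hc, hy'⟩ := side_openTri hy
      show ¬ (0 < side u p q y * D1)
      rw [hy', ← hD2, mul_assoc, mul_comm D2 D1]
      exact not_lt.mpr (mul_nonpos_of_nonneg_of_nonpos hc.le hs.le)
    calc ENNReal.ofReal (|D2 - D1| / 2)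
        = ENNReal.ofReal (|D1| / 2) + ENNReal.ofReal (|D2| / 2) := by
          rw [hsum, add_div, ENNReal.ofReal_add (by positivity) (by positivity)]
      _ = μHE[2] (openTri u p q r) + μHE[2] (openTri u p q s) := by
          rw [muHE_openTri hu, muHE_openTri hu]
      _ ≤ μHE[2] ((proj u '' K) ∩ H) + μHE[2] ((proj u '' K) \ H) :=
          add_le_add (measure_mono hT1) (measure_mono hT2)
      _ = μHE[2] (proj u '' K) := measure_inter_add_sdiff _ hHo.measurableSet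

/-! ### Lower bound for the standard K0hedron -/

theorem real_lower_bound {x y z A : ℝ} (h : x ^ 2 + y ^ 2 + z ^ 2 = 1)
    (hz : 2 * |z| ≤ A) (hp : Real.sqrt 2 * |x + y| ≤ A) (hm : Real.sqrt 2 * |x - y| ≤ A)
    (h1 : Real.sqrt 2 * |x| + |z| ≤ A) (h2 : Real.sqrt 2 * |y| + |z| ≤ A) :
    Real.sqrt 2 ≤ A := by
  have hs : Real.sqrt 2 ^ 2 = 2 := Real.sq_sqrt (by norm_num)
  have hs0 : 0 < Real.sqrt 2 := by positivity
  set c := Real.sqrt 2 with hc
  have hA : 0 ≤ A := le_trans (by positivity) hz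
  have key : 2 ≤ A ^ 2 := by
    have e1 : (x + y) ^ 2 + (x - y) ^ 2 + 2 * z ^ 2 = 2 := by nlinarith
    have hP := abs_nonneg (x + y)
    have hM := abs_nonneg (x - y)
    have hZ := abs_nonneg z
    have q1 : (x + y) ^ 2 = |x + y| * |x + y| := by rw [← sq, sq_abs]
    have q2 : (x - y) ^ 2 = |x - y| * |x - y| := by rw [← sq, sq_abs]
    have q3 : z ^ 2 = |z| * |z| := by rw [← sq, sq_abs]
    -- |x+y| + |x-y| = 2 max |x| |y|
    have hmax : c * (|x + y| + |x - y|) + 2 * |z| ≤ 2 * A := by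
      have : |x + y| + |x - y| = 2 * |x| ∨ |x + y| + |x - y| = 2 * |y| := by
        rcases abs_cases (x + y) with ⟨a1, b1⟩ | ⟨a1, b1⟩ <;>
        rcases abs_cases (x - y) with ⟨a2, b2⟩ | ⟨a2, b2⟩ <;>
        rcases abs_cases x with ⟨a3, b3⟩ | ⟨a3, b3⟩ <;>
        rcases abs_cases y with ⟨a4, b4⟩ | ⟨a4, b4⟩ <;>
        rw [a1, a2, a3, a4] <;>
        first
          | (left; linarith)
          | (right; linarith)
      rcases this with h | h <;> rw [h] <;> nlinarith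
    -- multiply
    have m1 : c * |x + y| * |x + y| ≤ A * |x + y| := mul_le_mul_of_nonneg_right hp hP
    have m2 : c * |x - y| * |x - y| ≤ A * |x - y| := mul_le_mul_of_nonneg_right hm hM
    have m3 : 2 * |z| * |z| ≤ A * |z| := mul_le_mul_of_nonneg_right hz hZ
    -- c * 2 = c * (...) ≤ A(|x+y| + |x-y|) + c A |z|
    have t1 : c * 2 ≤ A * (|x + y| + |x - y|) + c * (A * |z|) := by
      have e1' : |x + y| * |x + y| + |x - y| * |x - y| + 2 * (|z| * |z|) = 2 := by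
        rw [← q1, ← q2, ← q3]; exact e1
      calc c * 2 = c * |x + y| * |x + y| + c * |x - y| * |x - y| + c * (2 * |z| * |z|) := by
            linear_combination (-c) * e1'
        _ ≤ A * |x + y| + A * |x - y| + c * (A * |z|) := by
            have := mul_le_mul_of_nonneg_left m3 hs0.le
            linarith
        _ = _ := by ring
    have t2 : c * (c * 2) ≤ A * (c * (|x + y| + |x - y|) + 2 * |z|) := by
      have := mul_le_mul_of_nonneg_left t1 hs0.le
      have e2 : c * (A * (|x + y| + |x - y|) + c * (A * |z|)) =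
          A * (c * (|x + y| + |x - y|)) + c ^ 2 * (A * |z|) := by ring
      rw [e2, hs] at this
      linarith
    have t3 : A * (c * (|x + y| + |x - y|) + 2 * |z|) ≤ A * (2 * A) :=
      mul_le_mul_of_nonneg_left hmax hA
    nlinarith
  nlinarith [abs_nonneg z]

theorem subset_K0 {S : Set E3}
    (hS : S ⊆ {!₂[1, 0, 0], !₂[-1, 0, 0], !₂[0, 1, Real.sqrt 2], !₂[0, -1, Real.sqrt 2]}) :
    convexHull ℝ S ⊆ K0 := convexHull_mono hS

/-- Every orthogonal projection of the standard K0hedron has area at least `√2`. -/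
theorem sqrt2_le_muHE_proj {v : E3} (hv : ‖v‖ = 1) :
    ENNReal.ofReal (Real.sqrt 2) ≤ μHE[2] (proj v '' K0) := by
  have hs : Real.sqrt 2 * Real.sqrt 2 = 2 := Real.mul_self_sqrt (by norm_num)
  have hs0 : 0 < Real.sqrt 2 := by positivity
  have hv2 : v 0 ^ 2 + v 1 ^ 2 + v 2 ^ 2 = 1 := by rw [← norm_sq_E3, hv]; norm_num
  by_cases htop : μHE[2] (proj v '' K0) = ⊤
  · rw [htop]; exact le_top
  set A := (μHE[2] (proj v '' K0)).toReal with hA
  have hAeq : μHE[2] (proj v '' K0) = ENNReal.ofReal A := (ENNReal.ofReal_toReal htop).symm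
  have hA0 : 0 ≤ A := ENNReal.toReal_nonneg
  have conv : ∀ c : ℝ, ENNReal.ofReal c ≤ μHE[2] (proj v '' K0) → c ≤ A := by
    intro c hc
    rw [hAeq] at hc
    exact (ENNReal.ofReal_le_ofReal_iff hA0).mp hc
  rw [hAeq]
  apply ENNReal.ofReal_le_ofReal
  -- opposite edges
  have d1 := conv _ (le_muHE_proj_of_four (K := K0) hv (p := !₂[1, 0, 0]) (q := !₂[-1, 0, 0])
    (r := !₂[0, 1, Real.sqrt 2]) (s := !₂[0, -1, Real.sqrt 2])
    (subset_K0 (by intro x hx; simp only [Set.mem_insert_iff, Set.mem_singleton_iff] at hx ⊢; tauto))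
    (subset_K0 (by intro x hx; simp only [Set.mem_insert_iff, Set.mem_singleton_iff] at hx ⊢; tauto)))
  have d2 := conv _ (le_muHE_proj_of_four (K := K0) hv (p := !₂[1, 0, 0])
    (q := !₂[0, 1, Real.sqrt 2]) (r := !₂[-1, 0, 0]) (s := !₂[0, -1, Real.sqrt 2])
    (subset_K0 (by intro x hx; simp only [Set.mem_insert_iff, Set.mem_singleton_iff] at hx ⊢; tauto))
    (subset_K0 (by intro x hx; simp only [Set.mem_insert_iff, Set.mem_singleton_iff] at hx ⊢; tauto)))
  have d3 := conv _ (le_muHE_proj_of_four (K := K0) hv (p := !₂[1, 0, 0])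
    (q := !₂[0, -1, Real.sqrt 2]) (r := !₂[-1, 0, 0]) (s := !₂[0, 1, Real.sqrt 2])
    (subset_K0 (by intro x hx; simp only [Set.mem_insert_iff, Set.mem_singleton_iff] at hx ⊢; tauto))
    (subset_K0 (by intro x hx; simp only [Set.mem_insert_iff, Set.mem_singleton_iff] at hx ⊢; tauto)))
  have face : ∀ p q r : E3, convexHull ℝ {p, q, r} ⊆ K0 → |det3 (q - p) (r - p) v| / 2 ≤ A := by
    intro p q r h
    apply conv
    rw [← muHE_proj_triangle hv]
    exact measure_mono (Set.image_mono h)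
  have f1 := face !₂[1, 0, 0] !₂[-1, 0, 0] !₂[0, 1, Real.sqrt 2]
    (subset_K0 (by intro x hx; simp only [Set.mem_insert_iff, Set.mem_singleton_iff] at hx ⊢; tauto))
  have f2 := face !₂[1, 0, 0] !₂[-1, 0, 0] !₂[0, -1, Real.sqrt 2]
    (subset_K0 (by intro x hx; simp only [Set.mem_insert_iff, Set.mem_singleton_iff] at hx ⊢; tauto))
  have f3 := face !₂[1, 0, 0] !₂[0, 1, Real.sqrt 2] !₂[0, -1, Real.sqrt 2]
    (subset_K0 (by intro x hx; simp only [Set.mem_insert_iff, Set.mem_singleton_iff] at hx ⊢; tauto))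
  have f4 := face !₂[-1, 0, 0] !₂[0, 1, Real.sqrt 2] !₂[0, -1, Real.sqrt 2]
    (subset_K0 (by intro x hx; simp only [Set.mem_insert_iff, Set.mem_singleton_iff] at hx ⊢; tauto))
  simp only [det3, PiLp.sub_apply, Matrix.cons_val_zero, Matrix.cons_val_one, Matrix.cons_val] at d1 d2 d3 f1 f2 f3 f4
  have ex : ∀ E : ℝ, |E| / 2 ≤ A → E ≤ 2 * A ∧ -(2 * A) ≤ E := by
    intro E hE
    have h2 : |E| ≤ 2 * A := by linarith
    exact ⟨(abs_le.mp h2).2, (abs_le.mp h2).1⟩
  obtain ⟨d1a, d1b⟩ := ex _ d1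
  obtain ⟨d2a, d2b⟩ := ex _ d2
  obtain ⟨d3a, d3b⟩ := ex _ d3
  obtain ⟨f1a, f1b⟩ := ex _ f1
  obtain ⟨f2a, f2b⟩ := ex _ f2
  obtain ⟨f3a, f3b⟩ := ex _ f3
  obtain ⟨f4a, f4b⟩ := ex _ f4
  refine real_lower_bound hv2 ?_ ?_ ?_ ?_ ?_
  · rcases abs_cases (v 2) with ⟨a1, -⟩ | ⟨a1, -⟩ <;> rw [a1] <;> linarith
  · rcases abs_cases (v 0 + v 1) with ⟨a1, -⟩ | ⟨a1, -⟩ <;> rw [a1] <;> linarith
  · rcases abs_cases (v 0 - v 1) with ⟨a1, -⟩ | ⟨a1, -⟩ <;> rw [a1] <;> linarith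
  · rcases abs_cases (v 0) with ⟨a1, -⟩ | ⟨a1, -⟩ <;> rcases abs_cases (v 2) with ⟨a2, -⟩ | ⟨a2, -⟩ <;>
      rw [a1, a2] <;> linarith
  · rcases abs_cases (v 1) with ⟨a1, -⟩ | ⟨a1, -⟩ <;> rcases abs_cases (v 2) with ⟨a2, -⟩ | ⟨a2, -⟩ <;>
      rw [a1, a2] <;> linarith

/-- The projection along the first coordinate axis has area exactly `√2`. -/
theorem muHE_proj_axis :
    μHE[2] (proj !₂[1, 0, 0] '' K0) = ENNReal.ofReal (Real.sqrt 2) := by
  have himg : proj !₂[1, 0, 0] '' K0 =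
      convexHull ℝ {(0 : E3), !₂[0, 1, Real.sqrt 2], !₂[0, -1, Real.sqrt 2]} := by
    rw [(proj !₂[1, 0, 0]).image_convexHull, Set.image_insert_eq, Set.image_insert_eq,
      Set.image_pair]
    have h1 : proj !₂[1, 0, 0] !₂[1, 0, 0] = 0 := by
      rw [proj_apply, inner_E3]; ext i; fin_cases i <;> simp
    have h2 : proj !₂[1, 0, 0] !₂[-1, 0, 0] = 0 := by
      rw [proj_apply, inner_E3]; ext i; fin_cases i <;> simp
    have h3 : proj !₂[1, 0, 0] !₂[0, 1, Real.sqrt 2] = !₂[0, 1, Real.sqrt 2] := by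
      rw [proj_apply, inner_E3]; ext i; fin_cases i <;> simp
    have h4 : proj !₂[1, 0, 0] !₂[0, -1, Real.sqrt 2] = !₂[0, -1, Real.sqrt 2] := by
      rw [proj_apply, inner_E3]; ext i; fin_cases i <;> simp
    rw [h1, h2, h3, h4, Set.insert_eq_of_mem (Set.mem_insert _ _)]
  rw [himg, muHE_triangle, sub_zero, sub_zero]
  congr 1
  have hs : Real.sqrt 2 * Real.sqrt 2 = 2 := Real.mul_self_sqrt (by norm_num)
  have hs2 : Real.sqrt 2 ^ 2 = 2 := Real.sq_sqrt (by norm_num)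
  rw [gramArea, norm_sq_E3, norm_sq_E3, inner_E3]
  simp only [Matrix.cons_val_zero, Matrix.cons_val_one, Matrix.cons_val]
  rw [hs2, hs, show ((0 : ℝ) ^ 2 + 1 ^ 2 + 2) * (0 ^ 2 + (-1) ^ 2 + 2) - (0 * 0 + 1 * -1 + 2) ^ 2 =
    (2 * Real.sqrt 2) ^ 2 by rw [mul_pow, hs2]; norm_num]
  rw [Real.sqrt_sq (by positivity)]
  ring

/-! ### Finiteness -/

/-- A vector orthogonal to the unit vector `v` is a combination of two fixed orthonormal vectors. -/
theorem exists_frame (v : E3) (hv : ‖v‖ = 1) :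
    ∃ a b : E3, ∀ y : E3, inner ℝ y v = 0 → y = inner ℝ a y • a + inner ℝ b y • b ∧
      |inner ℝ a y| ≤ ‖y‖ ∧ |inner ℝ b y| ≤ ‖y‖ := by
  have hv0 : v ≠ 0 := by rintro rfl; simp at hv
  have : Fact (Module.finrank ℝ E3 = 2 + 1) := ⟨by simp⟩
  have hfr : Module.finrank ℝ (ℝ ∙ v)ᗮ = 2 := Submodule.finrank_orthogonal_span_singleton hv0
  let B : OrthonormalBasis (Fin 2) ℝ (ℝ ∙ v)ᗮ := (stdOrthonormalBasis ℝ _).reindex (finCongr hfr)
  refine ⟨(B 0 : E3), (B 1 : E3), fun y hy => ?_⟩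
  have hy' : y ∈ (ℝ ∙ v)ᗮ := by
    rw [Submodule.mem_orthogonal_singleton_iff_inner_left]; exact hy
  have hsum := B.sum_repr' ⟨y, hy'⟩
  rw [Fin.sum_univ_two] at hsum
  have hb : ∀ i : Fin 2, ‖(B i : E3)‖ = 1 := fun i => B.norm_eq_one i
  refine ⟨?_, ?_, ?_⟩
  · have h := congrArg (Subtype.val) hsum
    simp only [Submodule.coe_add, Submodule.coe_smul, Submodule.coe_inner] at h
    exact h.symm
  · have := abs_real_inner_le_norm (B 0 : E3) y
    rwa [hb 0, one_mul] at this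
  · have := abs_real_inner_le_norm (B 1 : E3) y
    rwa [hb 1, one_mul] at this

/-- Any bounded set has finite projected area. -/
theorem muHE_proj_ne_top (S : Set E3) (hS : Bornology.IsBounded S) (v : E3) (hv : ‖v‖ = 1) :
    μHE[2] ((fun y => y - inner ℝ y v • v) '' S) ≠ ⊤ := by
  rw [proj_image_def]
  obtain ⟨a, b, hab⟩ := exists_frame v hv
  have hb : Bornology.IsBounded (proj v '' S) := by
    have hc : LipschitzWith _ (proj v).toContinuousLinearMap := (proj v).toContinuousLinearMap.lipschitz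
    exact hc.isBounded_image hS
  obtain ⟨R, hR⟩ := hb.subset_closedBall 0
  have hsub : proj v '' S ⊆ (fun p : E2 => (0 : E3) + (p 0 • a + p 1 • b)) ''
      ((fun p : E2 => ((p 0, p 1) : ℝ × ℝ)) ⁻¹' (Set.Icc (-R) R ×ˢ Set.Icc (-R) R)) := by
    intro y hy
    have hy0 : inner ℝ y v = 0 := by
      obtain ⟨x, -, rfl⟩ := hy; exact inner_proj hv x
    obtain ⟨h1, h2, h3⟩ := hab y hy0
    have hyR : ‖y‖ ≤ R := by simpa using hR hy
    refine ⟨!₂[inner ℝ a y, inner ℝ b y], ?_, ?_⟩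
    · simp only [Set.mem_preimage, Set.mem_prod, Set.mem_Icc, Matrix.cons_val_zero,
        Matrix.cons_val_one]
      exact ⟨abs_le.mp (h2.trans hyR), abs_le.mp (h3.trans hyR)⟩
    · simp only [Matrix.cons_val_zero, Matrix.cons_val_one, zero_add]
      exact h1.symm
  refine ne_top_of_le_ne_top ?_ (measure_mono hsub)
  rw [muHE_image, volume_E2_preimage _ (measurableSet_Icc.prod measurableSet_Icc),
    Measure.volume_eq_prod, Measure.prod_prod, Real.volume_Icc]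
  exact ENNReal.mul_ne_top ENNReal.ofReal_ne_top (ENNReal.mul_ne_top ENNReal.ofReal_ne_top ENNReal.ofReal_ne_top)

/-- Every orthogonal projection of `K0` has area at least `√2`. -/
theorem muHE_proj_K0_ge (v : E3) (hv : ‖v‖ = 1) :
    ENNReal.ofReal (Real.sqrt 2) ≤ μHE[2] ((fun y => y - inner ℝ y v • v) '' K0) :=
  sqrt2_le_muHE_proj hv

/-- Equality is attained. -/
theorem muHE_proj_K0_eq :
    ∃ v : E3, ‖v‖ = 1 ∧
      μHE[2] ((fun y => y - inner ℝ y v • v) '' K0) = ENNReal.ofReal (Real.sqrt 2) := by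
  refine ⟨!₂[1, 0, 0], ?_, muHE_proj_axis⟩
  rw [← Real.sqrt_sq (norm_nonneg _), norm_sq_E3]
  simp

theorem isBounded_K0 : Bornology.IsBounded K0 := by
  apply (isBounded_convexHull).mpr
  exact (Set.toFinite _).isBounded

/-- Real-valued version of the lower bound. -/
theorem sqrt2_le_toReal_muHE_proj_K0 (v : E3) (hv : ‖v‖ = 1) :
    Real.sqrt 2 ≤ (μHE[2] ((fun y => y - inner ℝ y v • v) '' K0)).toReal := by
  have h := muHE_proj_K0_ge v hv
  have htop := muHE_proj_ne_top K0 isBounded_K0 v hv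
  rwa [ENNReal.ofReal_le_iff_le_toReal htop] at h

end Crest.Agent.R211
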