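import Mathlib

-- ▼ part R211/Ruled
section

set_option autoImplicit false
open MeasureTheory Set

namespace Crest.Agent.R211.Ruled

abbrev E2 := EuclideanSpace ℝ (Fin 2)

/-- cost density -/
noncomputable def Jf (h : ℝ) (v : E2) : ℝ := 1 / Real.sqrt (1 + (v 0)^2 + h^2 * (v 1)^2)

/-- The covering predicate. -/
def Cov (V : E2 → E2) (L h : ℝ) (S : Set E2) (m : ℝ) : Prop :=
  ∃ (k : ℕ) (c a b g : Fin k → E2),
      (∀ i, a i ≠ 0 ∧ ‖b i‖ = ‖a i‖ ∧ inner ℝ (a i) (b i) = 0) ∧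
      {z : ℝ × E2 | ∃ p ∈ S, abs z.1 ≤ L ∧ z.2 = p + z.1 • V p} ⊆
        ⋃ i, {z : ℝ × E2 | ∃ x ∈ Set.Icc (0 : ℝ) 1, ∃ y ∈ Set.Icc (0 : ℝ) 1,
          z.2 = c i + x • a i + y • b i + z.1 • g i} ∧
      ∑ i, ‖a i‖ ^ 2 / Real.sqrt (1 + (g i 0) ^ 2 + h ^ 2 * (g i 1) ^ 2) ≤ m

lemma Cov.of_fintype {V : E2 → E2} {L h : ℝ} {S : Set E2} {m : ℝ} {ι : Type*} [Fintype ι]
    (c a b g : ι → E2) (h1 : ∀ i, a i ≠ 0 ∧ ‖b i‖ = ‖a i‖ ∧ inner ℝ (a i) (b i) = 0)
    (h2 : ∀ p ∈ S, ∀ s : ℝ, |s| ≤ L → ∃ i, ∃ x ∈ Set.Icc (0 : ℝ) 1, ∃ y ∈ Set.Icc (0 : ℝ) 1,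
      p + s • V p = c i + x • a i + y • b i + s • g i)
    (h3 : ∑ i, ‖a i‖ ^ 2 / Real.sqrt (1 + (g i 0) ^ 2 + h ^ 2 * (g i 1) ^ 2) ≤ m) :
    Cov V L h S m := by
  classical
  let e := Fintype.equivFin ι
  refine ⟨Fintype.card ι, fun i => c (e.symm i), fun i => a (e.symm i), fun i => b (e.symm i),
    fun i => g (e.symm i), fun i => h1 _, ?_, ?_⟩
  · rintro ⟨s, z⟩ ⟨p, hp, hs, hz⟩
    obtain ⟨i, x, hx, y, hy, hxy⟩ := h2 p hp s hs
    refine mem_iUnion.2 ⟨e i, x, hx, y, hy, ?_⟩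
    simp only [Equiv.symm_apply_apply]
    simp only at hz
    rw [hz, hxy]
  · refine le_trans (le_of_eq ?_) h3
    exact (Equiv.sum_comp e.symm (fun i => ‖a i‖ ^ 2 / Real.sqrt (1 + (g i 0) ^ 2 + h ^ 2 * (g i 1) ^ 2)))

lemma Cov.mono {V : E2 → E2} {L h : ℝ} {S S' : Set E2} {m m' : ℝ} (H : Cov V L h S m)
    (hS : S' ⊆ S) (hm : m ≤ m') : Cov V L h S' m' := by
  obtain ⟨k, c, a, b, g, h1, h2, h3⟩ := H
  refine ⟨k, c, a, b, g, h1, ?_, h3.trans hm⟩
  refine Subset.trans ?_ h2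
  rintro z ⟨p, hp, hz⟩
  exact ⟨p, hS hp, hz⟩

lemma Cov.empty {V : E2 → E2} {L h : ℝ} {m : ℝ} (hm : 0 ≤ m) : Cov V L h ∅ m := by
  refine Cov.of_fintype (ι := Fin 0) (fun _ => 0) (fun _ => 0) (fun _ => 0) (fun _ => 0)
    (fun i => i.elim0) (fun p hp => absurd hp (notMem_empty p)) ?_
  simpa using hm

lemma Cov.union {V : E2 → E2} {L h : ℝ} {S S' : Set E2} {m m' : ℝ} (H : Cov V L h S m)
    (H' : Cov V L h S' m') : Cov V L h (S ∪ S') (m + m') := by
  obtain ⟨k, c, a, b, g, h1, h2, h3⟩ := H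
  obtain ⟨k', c', a', b', g', h1', h2', h3'⟩ := H'
  refine Cov.of_fintype (ι := Fin k ⊕ Fin k') (Sum.elim c c') (Sum.elim a a') (Sum.elim b b')
    (Sum.elim g g') ?_ ?_ ?_
  · rintro (i | i)
    · exact h1 i
    · exact h1' i
  · rintro p (hp | hp) s hs
    · have := h2 (show ((s, p + s • V p) : ℝ × E2) ∈ _ from ⟨p, hp, hs, rfl⟩)
      obtain ⟨i, x, hx, y, hy, hxy⟩ := mem_iUnion.1 this
      exact ⟨Sum.inl i, x, hx, y, hy, hxy⟩
    · have := h2' (show ((s, p + s • V p) : ℝ × E2) ∈ _ from ⟨p, hp, hs, rfl⟩)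
      obtain ⟨i, x, hx, y, hy, hxy⟩ := mem_iUnion.1 this
      exact ⟨Sum.inr i, x, hx, y, hy, hxy⟩
  · rw [Fintype.sum_sum_type]
    exact add_le_add h3 h3'

/-- Combinatorial core: unit squares centred at the points of the sheared lattice cover the
plane. -/
lemma comb_nonneg (a b X Y : ℝ) (ha : 0 ≤ a) (hb : 0 ≤ b) (hab1 : a * b < 1) :
    ∃ k j : ℤ, |X - k - a * j| ≤ 1 / 2 ∧ |Y - j - b * k| ≤ 1 / 2 := by
  set kf : ℤ → ℤ := fun j => ⌊X - a * j + 1 / 2⌋ with hkf
  have hk1 : ∀ j : ℤ, (kf j : ℝ) ≤ X - a * j + 1 / 2 := fun j => Int.floor_le _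
  have hk2 : ∀ j : ℤ, X - a * j - 1 / 2 < (kf j : ℝ) := fun j => by
    have := Int.lt_floor_add_one (X - a * j + 1 / 2)
    simp only [hkf]
    linarith
  have hγ : 0 < 1 - a * b := by linarith
  obtain ⟨j, hj, hmin⟩ := Int.exists_least_of_bdd (P := fun j : ℤ => Y - j - b * kf j ≤ 1 / 2)
    ⟨⌊(Y - b * X - b / 2 - 1 / 2) / (1 - a * b)⌋, by
      intro z hz
      have h1 : b * kf z ≤ b * (X - a * z + 1 / 2) := mul_le_mul_of_nonneg_left (hk1 z) hb
      have h2 : (Y - b * X - b / 2 - 1 / 2) / (1 - a * b) ≤ z := by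
        rw [div_le_iff₀ hγ]
        nlinarith
      have h3 : ((⌊(Y - b * X - b / 2 - 1 / 2) / (1 - a * b)⌋ : ℤ) : ℝ) ≤ z :=
        (Int.floor_le _).trans h2
      exact_mod_cast h3⟩
    ⟨⌈(Y - b * X + b / 2 - 1 / 2) / (1 - a * b)⌉, by
      have h1 : b * (X - a * ⌈(Y - b * X + b / 2 - 1 / 2) / (1 - a * b)⌉ - 1 / 2) ≤
          b * kf ⌈(Y - b * X + b / 2 - 1 / 2) / (1 - a * b)⌉ :=
        mul_le_mul_of_nonneg_left (hk2 _).le hb
      have h2 : (Y - b * X + b / 2 - 1 / 2) / (1 - a * b) ≤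
          (⌈(Y - b * X + b / 2 - 1 / 2) / (1 - a * b)⌉ : ℝ) := Int.le_ceil _
      rw [div_le_iff₀ hγ] at h2
      nlinarith⟩
  refine ⟨kf j, j, ?_, ?_⟩
  · rw [abs_le]
    constructor <;> linarith [hk1 j, hk2 j]
  · have h1 : ¬ (Y - (j - 1 : ℤ) - b * kf (j - 1) ≤ 1 / 2) := by
      intro h
      have := hmin _ h
      omega
    push Not at h1
    have h2 : kf j ≤ kf (j - 1) := by
      apply Int.floor_mono
      push_cast
      nlinarith
    have h3 : b * (kf j : ℝ) ≤ b * (kf (j - 1) : ℝ) :=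
      mul_le_mul_of_nonneg_left (by exact_mod_cast h2) hb
    push_cast at h1
    rw [abs_le]
    constructor <;> linarith

lemma comb (a b X Y : ℝ) (hab : 0 ≤ a * b) (hab1 : a * b < 1) :
    ∃ k j : ℤ, |X - k - a * j| ≤ 1 / 2 ∧ |Y - j - b * k| ≤ 1 / 2 := by
  rcases mul_nonneg_iff.1 hab with ⟨ha, hb⟩ | ⟨ha, hb⟩
  · exact comb_nonneg a b X Y ha hb hab1
  · obtain ⟨k, j, h1, h2⟩ := comb_nonneg (-a) (-b) (-X) Y (by linarith) (by linarith) (by linarith)
    refine ⟨-k, j, ?_, ?_⟩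
    · rw [← abs_neg]
      push_cast
      convert h1 using 2
      ring
    · push_cast
      convert h2 using 2
      ring


noncomputable def fvec (φ : ℝ) : E2 := !₂[Real.cos φ, Real.sin φ]

lemma inner_E2 (x y : E2) : inner ℝ x y = x 0 * y 0 + x 1 * y 1 := by
  simp [PiLp.inner_apply, Fin.sum_univ_two]
  ring

lemma exists_basis (φ : ℝ) : ∃ e : OrthonormalBasis (Fin 2) ℝ E2,
    e 0 = fvec φ ∧ e 1 = fvec (φ + Real.pi / 2) := by
  have h := Real.sin_sq_add_cos_sq φ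
  have h00 : inner ℝ (fvec φ) (fvec φ) = 1 := by
    rw [inner_E2]; simp [fvec]; nlinarith
  have h11 : inner ℝ (fvec (φ + Real.pi / 2)) (fvec (φ + Real.pi / 2)) = 1 := by
    rw [inner_E2]; simp [fvec, Real.cos_add_pi_div_two, Real.sin_add_pi_div_two]; nlinarith
  have h01 : inner ℝ (fvec φ) (fvec (φ + Real.pi / 2)) = 0 := by
    rw [inner_E2]; simp [fvec, Real.cos_add_pi_div_two, Real.sin_add_pi_div_two]; ring
  have h10 : inner ℝ (fvec (φ + Real.pi / 2)) (fvec φ) = 0 := by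
    rw [real_inner_comm]; exact h01
  have ho : Orthonormal ℝ ![fvec φ, fvec (φ + Real.pi / 2)] := by
    rw [orthonormal_iff_ite]
    intro i j
    fin_cases i <;> fin_cases j
    · simpa using! h00
    · simpa using! h01
    · simpa using! h10
    · simpa using! h11
  have hc : Fintype.card (Fin 2) = Module.finrank ℝ E2 := by simp
  refine ⟨(basisOfOrthonormalOfCardEqFinrank ho hc).toOrthonormalBasis (by simpa using ho), ?_, ?_⟩
  · simp
  · simp

lemma frame (A : E2 →L[ℝ] E2) (htr : LinearMap.trace ℝ _ A.toLinearMap = 0) :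
    ∃ (e : OrthonormalBasis (Fin 2) ℝ E2) (α β : ℝ), A (e 0) = β • e 1 ∧ A (e 1) = α • e 0 ∧
      LinearMap.det A.toLinearMap = -(α * β) := by
  -- trace in an orthonormal basis
  have htr' : ∀ φ : ℝ, inner ℝ (fvec φ) (A (fvec φ)) +
      inner ℝ (fvec (φ + Real.pi / 2)) (A (fvec (φ + Real.pi / 2))) = 0 := by
    intro φ
    obtain ⟨e, he0, he1⟩ := exists_basis φ
    have := LinearMap.trace_eq_sum_inner A.toLinearMap e
    rw [htr, Fin.sum_univ_two, he0, he1] at this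
    simpa using this.symm
  have hcont : Continuous fun φ : ℝ => inner ℝ (fvec φ) (A (fvec φ)) := by
    have hf : Continuous fvec := by
      unfold fvec
      fun_prop
    exact hf.inner (A.continuous.comp hf)
  obtain ⟨φ, hφ⟩ : ∃ φ : ℝ, inner ℝ (fvec φ) (A (fvec φ)) = 0 := by
    have h0 := htr' 0
    rw [zero_add] at h0
    rcases le_total 0 (inner ℝ (fvec 0) (A (fvec 0))) with h | h
    · have := intermediate_value_uIcc (a := 0) (b := Real.pi / 2) hcont.continuousOn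
      obtain ⟨φ, -, hφ⟩ := this (show (0 : ℝ) ∈ _ by
        rw [mem_uIcc]; right; constructor <;> linarith)
      exact ⟨φ, hφ⟩
    · have := intermediate_value_uIcc (a := 0) (b := Real.pi / 2) hcont.continuousOn
      obtain ⟨φ, -, hφ⟩ := this (show (0 : ℝ) ∈ _ by
        rw [mem_uIcc]; left; constructor <;> linarith)
      exact ⟨φ, hφ⟩
  obtain ⟨e, he0, he1⟩ := exists_basis φ
  have h00 : inner ℝ (e 0) (A (e 0)) = 0 := by rw [he0]; exact hφ
  have h11 : inner ℝ (e 1) (A (e 1)) = 0 := by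
    have := htr' φ
    rw [hφ, zero_add] at this
    rw [he1]; exact this
  refine ⟨e, inner ℝ (e 0) (A (e 1)), inner ℝ (e 1) (A (e 0)), ?_, ?_, ?_⟩
  · have := e.sum_repr' (A (e 0))
    rw [Fin.sum_univ_two, h00, zero_smul, zero_add] at this
    exact this.symm
  · have := e.sum_repr' (A (e 1))
    rw [Fin.sum_univ_two, h11, zero_smul, add_zero] at this
    exact this.symm
  · rw [← LinearMap.det_toMatrix e.toBasis, Matrix.det_fin_two]
    simp only [LinearMap.toMatrix_apply, OrthonormalBasis.coe_toBasis,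
      OrthonormalBasis.coe_toBasis_repr_apply, OrthonormalBasis.repr_apply_apply,
      ContinuousLinearMap.coe_coe]
    rw [h00, h11]
    ring


end Crest.Agent.R211.Ruled
end

-- ▼ part R211/RuledLocal
section

set_option autoImplicit false
open MeasureTheory Set

namespace Crest.Agent.R211.Ruled

lemma lin_bound (a b x y δ γ M : ℝ) (hδ : 0 < δ) (hγ : 0 < γ) (h1 : γ ≤ 1 - a * b)
    (hM : |a| + |b| ≤ M) (hx : |x + a * y| ≤ δ / 2) (hy : |y + b * x| ≤ δ / 2) :
    |x| + |y| ≤ δ * ((2 + M) / (2 * γ)) := by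
  have hy' : |y| * γ ≤ δ / 2 * (1 + |b|) := by
    have e : (1 - a * b) * y = (y + b * x) - b * (x + a * y) := by ring
    have h2 : |(1 - a * b) * y| ≤ δ / 2 + |b| * (δ / 2) := by
      rw [e]
      refine (abs_sub _ _).trans ?_
      rw [abs_mul]
      gcongr
    rw [abs_mul, abs_of_pos (lt_of_lt_of_le hγ h1)] at h2
    have : |y| * γ ≤ (1 - a * b) * |y| := by
      rw [mul_comm]
      exact mul_le_mul_of_nonneg_right h1 (abs_nonneg _)
    linarith
  have hx' : |x| * γ ≤ δ / 2 * (1 + |a|) := by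
    have e : (1 - a * b) * x = (x + a * y) - a * (y + b * x) := by ring
    have h2 : |(1 - a * b) * x| ≤ δ / 2 + |a| * (δ / 2) := by
      rw [e]
      refine (abs_sub _ _).trans ?_
      rw [abs_mul]
      gcongr
    rw [abs_mul, abs_of_pos (lt_of_lt_of_le hγ h1)] at h2
    have : |x| * γ ≤ (1 - a * b) * |x| := by
      rw [mul_comm]
      exact mul_le_mul_of_nonneg_right h1 (abs_nonneg _)
    linarith
  have h3 : (|x| + |y|) * (2 * γ) ≤ δ * (2 + M) := by nlinarith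
  rw [← mul_div_assoc, le_div_iff₀ (by positivity)]
  exact h3

/-- The half-open cell of the grid of mesh `δ` in the frame `e`. -/
def cell (e : OrthonormalBasis (Fin 2) ℝ E2) (δ : ℝ) (kj : ℤ × ℤ) : Set E2 :=
  {q : E2 | δ * (kj.1 - 1 / 2) ≤ inner ℝ (e 0) q ∧ inner ℝ (e 0) q < δ * (kj.1 + 1 / 2) ∧
    δ * (kj.2 - 1 / 2) ≤ inner ℝ (e 1) q ∧ inner ℝ (e 1) q < δ * (kj.2 + 1 / 2)}

lemma cell_eq (e : OrthonormalBasis (Fin 2) ℝ E2) (δ : ℝ) (kj : ℤ × ℤ) :
    cell e δ kj = (fun q => (e.repr q).ofLp) ⁻¹' (Set.pi univ fun i : Fin 2 =>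
      Ico (![δ * (kj.1 - 1 / 2), δ * (kj.2 - 1 / 2)] i) (![δ * (kj.1 + 1 / 2), δ * (kj.2 + 1 / 2)] i)) := by
  ext q
  simp only [cell, mem_ofPred_eq, mem_preimage, mem_pi, mem_univ, true_imp_iff, Fin.forall_fin_two,
    mem_Ico]
  simp only [Matrix.cons_val_zero, Matrix.cons_val_one, OrthonormalBasis.repr_apply_apply]
  tauto

lemma measurableSet_cell (e : OrthonormalBasis (Fin 2) ℝ E2) (δ : ℝ) (kj : ℤ × ℤ) :
    MeasurableSet (cell e δ kj) := by
  rw [cell_eq]
  have h : MeasurePreserving (fun q => (e.repr q).ofLp) :=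
    (PiLp.volume_preserving_ofLp (Fin 2)).comp e.measurePreserving_repr
  exact h.measurable (MeasurableSet.univ_pi fun i => measurableSet_Ico)

lemma volume_cell (e : OrthonormalBasis (Fin 2) ℝ E2) (δ : ℝ) (hδ : 0 < δ) (kj : ℤ × ℤ) :
    volume (cell e δ kj) = ENNReal.ofReal (δ ^ 2) := by
  rw [cell_eq]
  have h : MeasurePreserving (fun q => (e.repr q).ofLp) :=
    (PiLp.volume_preserving_ofLp (Fin 2)).comp e.measurePreserving_repr
  rw [h.measure_preimage (MeasurableSet.univ_pi fun i => measurableSet_Ico).nullMeasurableSet]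
  rw [Real.volume_pi_Ico, Fin.prod_univ_two]
  simp only [Matrix.cons_val_zero, Matrix.cons_val_one]
  rw [← ENNReal.ofReal_mul (by nlinarith)]
  congr 1
  ring

lemma disjoint_cell (e : OrthonormalBasis (Fin 2) ℝ E2) (δ : ℝ) (hδ : 0 < δ) {kj kj' : ℤ × ℤ}
    (hne : kj ≠ kj') : Disjoint (cell e δ kj) (cell e δ kj') := by
  rw [Set.disjoint_left]
  rintro q ⟨h1, h2, h3, h4⟩ ⟨h1', h2', h3', h4'⟩
  apply hne
  have key : ∀ (m n : ℤ) (t : ℝ), δ * (m - 1 / 2) ≤ t → t < δ * (m + 1 / 2) →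
      δ * (n - 1 / 2) ≤ t → t < δ * (n + 1 / 2) → m = n := by
    intro m n t ha hb hc hd
    have h1 : (m : ℝ) - 1 / 2 < n + 1 / 2 := lt_of_mul_lt_mul_left (ha.trans_lt hd) hδ.le
    have h2 : (n : ℝ) - 1 / 2 < m + 1 / 2 := lt_of_mul_lt_mul_left (hc.trans_lt hb) hδ.le
    have h1' : (m : ℝ) < n + 1 := by linarith
    have h2' : (n : ℝ) < m + 1 := by linarith
    have h1'' : m < n + 1 := by exact_mod_cast h1'
    have h2'' : n < m + 1 := by exact_mod_cast h2'
    omega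
  exact Prod.ext (key _ _ _ h1 h2 h1' h2') (key _ _ _ h3 h4 h3' h4')

/-- grid points -/
noncomputable def gp (e : OrthonormalBasis (Fin 2) ℝ E2) (δ : ℝ) (kj : ℤ × ℤ) : E2 :=
  (δ * kj.1) • e 0 + (δ * kj.2) • e 1

lemma e_expand (e : OrthonormalBasis (Fin 2) ℝ E2) (q : E2) :
    q = (inner ℝ (e 0) q) • e 0 + (inner ℝ (e 1) q) • e 1 := by
  have := e.sum_repr' q
  rw [Fin.sum_univ_two] at this
  exact this.symm

lemma inner_e0_gp (e : OrthonormalBasis (Fin 2) ℝ E2) (δ : ℝ) (kj : ℤ × ℤ) :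
    inner ℝ (e 0) (gp e δ kj) = δ * kj.1 := by
  simp [gp, inner_add_right, inner_smul_right, e.inner_eq_zero (show (0 : Fin 2) ≠ 1 by decide)]

lemma inner_e1_gp (e : OrthonormalBasis (Fin 2) ℝ E2) (δ : ℝ) (kj : ℤ × ℤ) :
    inner ℝ (e 1) (gp e δ kj) = δ * kj.2 := by
  simp [gp, inner_add_right, inner_smul_right, e.inner_eq_zero (show (1 : Fin 2) ≠ 0 by decide)]

lemma norm_le_of_coords (e : OrthonormalBasis (Fin 2) ℝ E2) (q : E2) :
    ‖q‖ ≤ |inner ℝ (e 0) q| + |inner ℝ (e 1) q| := by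
  conv_lhs => rw [e_expand e q]
  refine (norm_add_le _ _).trans ?_
  rw [norm_smul, norm_smul, e.norm_eq_one, e.norm_eq_one]
  simp

lemma abs_inner_e_le (e : OrthonormalBasis (Fin 2) ℝ E2) (i : Fin 2) (q : E2) :
    |inner ℝ (e i) q| ≤ ‖q‖ := by
  have := abs_real_inner_le_norm (e i) q
  rwa [e.norm_eq_one, one_mul] at this

lemma norm_sub_gp_of_mem_cell (e : OrthonormalBasis (Fin 2) ℝ E2) (δ : ℝ) (kj : ℤ × ℤ)
    {q : E2} (hq : q ∈ cell e δ kj) : ‖q - gp e δ kj‖ ≤ δ := by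
  refine (norm_le_of_coords e _).trans ?_
  rw [inner_sub_right, inner_sub_right, inner_e0_gp, inner_e1_gp]
  obtain ⟨h1, h2, h3, h4⟩ := hq
  have a1 : |inner ℝ (e 0) q - δ * kj.1| ≤ δ / 2 := by rw [abs_le]; constructor <;> nlinarith
  have a2 : |inner ℝ (e 1) q - δ * kj.2| ≤ δ / 2 := by rw [abs_le]; constructor <;> nlinarith
  linarith

lemma Jf_nonneg (h : ℝ) (v : E2) : 0 ≤ Jf h v := by
  unfold Jf
  positivity


lemma continuous_Jf (h : ℝ) : Continuous (Jf h) := by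
  unfold Jf
  refine continuous_const.div ?_ ?_
  · fun_prop
  · intro v
    have : 0 < 1 + (v 0)^2 + h^2 * (v 1)^2 := by positivity
    positivity

/-- Pointwise covering: the moving point `q + s V q` lies in the moving square of a grid point. -/
lemma local_point (V : E2 → E2) (L : ℝ) (hL : 0 < L) (A : E2 →L[ℝ] E2)
    (e : OrthonormalBasis (Fin 2) ℝ E2) (α β : ℝ) (he0 : A (e 0) = β • e 1)
    (he1 : A (e 1) = α • e 0) (hαβ0 : 0 ≤ α * β) (γ C δ κ : ℝ) (hγdef : γ = 1 - L ^ 2 * (α * β))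
    (hγ : 0 < γ) (hCdef : C = (2 + L * (|α| + |β|)) / (2 * γ)) (hδ : 0 < δ)
    (q : E2) (s : ℝ) (hs : |s| ≤ L)
    (herr : ∀ g : E2, ‖q - g‖ ≤ δ * C → L * ‖V q - V g - A (q - g)‖ ≤ δ * κ / 2) :
    ∃ kj : ℤ × ℤ, ‖q - gp e δ kj‖ ≤ δ * C ∧ ∃ X Y : ℝ, |X| ≤ δ * (1 + κ) / 2 ∧
      |Y| ≤ δ * (1 + κ) / 2 ∧
      q + s • V q = gp e δ kj + X • e 0 + Y • e 1 + s • V (gp e δ kj) := by
  set ξ : ℝ := inner ℝ (e 0) q with hξ
  set ζ : ℝ := inner ℝ (e 1) q with hζ
  have hsL : s ^ 2 ≤ L ^ 2 := by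
    rw [← sq_abs]
    exact pow_le_pow_left₀ (abs_nonneg _) hs 2
  have hab' : (s * α) * (s * β) = s ^ 2 * (α * β) := by ring
  have hab : 0 ≤ (s * α) * (s * β) := by rw [hab']; positivity
  have hab1 : γ ≤ 1 - (s * α) * (s * β) := by
    rw [hγdef, hab']
    have := mul_le_mul_of_nonneg_right hsL hαβ0
    linarith
  obtain ⟨k, j, hk, hj⟩ := comb (s * α) (s * β) ((ξ + s * α * ζ) / δ) ((ζ + s * β * ξ) / δ) hab
    (by linarith)
  have hk' : |(ξ - δ * k) + (s * α) * (ζ - δ * j)| ≤ δ / 2 := by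
    have e1 : (ξ - δ * k) + (s * α) * (ζ - δ * j) =
        δ * ((ξ + s * α * ζ) / δ - k - s * α * j) := by field_simp; ring
    rw [e1, abs_mul, abs_of_pos hδ]
    have := mul_le_mul_of_nonneg_left hk hδ.le
    linarith
  have hj' : |(ζ - δ * j) + (s * β) * (ξ - δ * k)| ≤ δ / 2 := by
    have e1 : (ζ - δ * j) + (s * β) * (ξ - δ * k) =
        δ * ((ζ + s * β * ξ) / δ - j - s * β * k) := by field_simp; ring
    rw [e1, abs_mul, abs_of_pos hδ]
    have := mul_le_mul_of_nonneg_left hj hδ.le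
    linarith
  have hM : |s * α| + |s * β| ≤ L * (|α| + |β|) := by
    rw [abs_mul, abs_mul, mul_add]
    exact add_le_add (mul_le_mul_of_nonneg_right hs (abs_nonneg _))
      (mul_le_mul_of_nonneg_right hs (abs_nonneg _))
  have hnear := lin_bound (s * α) (s * β) (ξ - δ * k) (ζ - δ * j) δ γ _ hδ hγ hab1 hM hk' hj'
  have hnorm : ‖q - gp e δ (k, j)‖ ≤ δ * C := by
    refine (norm_le_of_coords e _).trans ?_
    rw [inner_sub_right, inner_sub_right, inner_e0_gp, inner_e1_gp, hCdef]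
    exact hnear
  refine ⟨(k, j), hnorm, ?_⟩
  -- error vector
  set E : E2 := V q - V (gp e δ (k, j)) - A (q - gp e δ (k, j)) with hE
  have hEn : L * ‖E‖ ≤ δ * κ / 2 := herr _ hnorm
  have hE0 : |s * inner ℝ (e 0) E| ≤ δ * κ / 2 := by
    rw [abs_mul]
    calc |s| * |inner ℝ (e 0) E| ≤ L * ‖E‖ :=
          mul_le_mul hs (abs_inner_e_le e 0 E) (abs_nonneg _) hL.le
      _ ≤ _ := hEn
  have hE1 : |s * inner ℝ (e 1) E| ≤ δ * κ / 2 := by
    rw [abs_mul]
    calc |s| * |inner ℝ (e 1) E| ≤ L * ‖E‖ :=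
          mul_le_mul hs (abs_inner_e_le e 1 E) (abs_nonneg _) hL.le
      _ ≤ _ := hEn
  refine ⟨(ξ - δ * k) + (s * α) * (ζ - δ * j) + s * inner ℝ (e 0) E,
    (ζ - δ * j) + (s * β) * (ξ - δ * k) + s * inner ℝ (e 1) E, ?_, ?_, ?_⟩
  · refine (abs_add_le _ _).trans ?_
    linarith
  · refine (abs_add_le _ _).trans ?_
    linarith
  · have hVq : V q = V (gp e δ (k, j)) + A (q - gp e δ (k, j)) + E := by rw [hE]; abel
    have hq' : q - gp e δ (k, j) = (ξ - δ * k) • e 0 + (ζ - δ * j) • e 1 := by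
      conv_lhs => rw [e_expand e q]
      simp only [gp]
      module
    have hAq : A (q - gp e δ (k, j)) = ((ξ - δ * k) * β) • e 1 + ((ζ - δ * j) * α) • e 0 := by
      rw [hq', map_add, map_smul, map_smul, he0, he1, smul_smul, smul_smul]
    have hEe := e_expand e E
    have hqq : q = gp e δ (k, j) + ((ξ - δ * k) • e 0 + (ζ - δ * j) • e 1) := by
      rw [← hq']; abel
    calc q + s • V q = gp e δ (k, j) + ((ξ - δ * k) • e 0 + (ζ - δ * j) • e 1) +
          s • (V (gp e δ (k, j)) + (((ξ - δ * k) * β) • e 1 + ((ζ - δ * j) * α) • e 0) +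
            ((inner ℝ (e 0) E) • e 0 + (inner ℝ (e 1) E) • e 1)) := by
          rw [← hEe, ← hAq, ← hVq, ← hqq]
      _ = _ := by module

set_option maxHeartbeats 4000000 in
lemma local_cov (V : E2 → E2) (L h : ℝ) (hL : 0 < L) (p : E2) (A : E2 →L[ℝ] E2)
    (hA : HasStrictFDerivAt V A p) (htr : LinearMap.trace ℝ _ A.toLinearMap = 0)
    (hdet : -(L ^ 2)⁻¹ < LinearMap.det A.toLinearMap ∧ LinearMap.det A.toLinearMap ≤ 0)
    (c : ℝ) (hc : Jf h (V p) < c) :
    ∃ r > 0, ∀ K : Set E2, IsCompact K → K ⊆ Metric.closedBall p r → ∀ η > 0,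
      Cov V L h K (c * volume.real K + η) := by
  obtain ⟨e, α, β, he0, he1, hd⟩ := frame A htr
  have hc0 : 0 < c := (Jf_nonneg h _).trans_lt hc
  have hαβ0 : 0 ≤ α * β := by linarith [hdet.2]
  have hαβ1 : L ^ 2 * (α * β) < 1 := by
    have h1 : α * β < (L ^ 2)⁻¹ := by linarith [hdet.1]
    calc L ^ 2 * (α * β) < L ^ 2 * (L ^ 2)⁻¹ := by gcongr
      _ = 1 := mul_inv_cancel₀ (by positivity)
  set γ : ℝ := 1 - L ^ 2 * (α * β) with hγdef
  have hγ : 0 < γ := by linarith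
  set C : ℝ := (2 + L * (|α| + |β|)) / (2 * γ) with hCdef
  have hC : 0 < C := by positivity
  -- constants
  set c₁ : ℝ := (Jf h (V p) + c) / 2 with hc₁def
  have hc₁ : Jf h (V p) < c₁ := by rw [hc₁def]; linarith
  have hc₁c : c₁ < c := by rw [hc₁def]; linarith
  have hc₁0 : 0 < c₁ := (Jf_nonneg h _).trans_lt hc₁
  set κ : ℝ := min 1 ((c - c₁) / (3 * c₁)) with hκdef
  have hκ0 : 0 < κ := lt_min one_pos (div_pos (by linarith) (by positivity))
  have hκ1 : κ ≤ 1 := min_le_left _ _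
  have hκ2 : κ ≤ (c - c₁) / (3 * c₁) := min_le_right _ _
  have hκc : (1 + κ) ^ 2 * c₁ ≤ c := by
    rw [le_div_iff₀ (by positivity)] at hκ2
    nlinarith
  set θ : ℝ := κ / (2 * L * C) with hθdef
  have hθ : 0 < θ := by positivity
  -- neighbourhoods
  have hstrict := hA.isLittleO.def hθ
  rw [nhds_prod_eq] at hstrict
  obtain ⟨r₁, hr₁, hball₁⟩ : ∃ r₁ > 0, ∀ q ∈ Metric.ball p r₁, ∀ q' ∈ Metric.ball p r₁,
      ‖V q - V q' - A (q - q')‖ ≤ θ * ‖q - q'‖ := by
    obtain ⟨s, hs, hs'⟩ := Filter.eventually_prod_self_iff'.1 hstrict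
    obtain ⟨r₁, hr₁, hsub⟩ := Metric.mem_nhds_iff.1 hs
    exact ⟨r₁, hr₁, fun q hq q' hq' => hs' q (hsub hq) q' (hsub hq')⟩
  obtain ⟨r₂, hr₂, hball₂⟩ : ∃ r₂ > 0, ∀ q ∈ Metric.ball p r₂, Jf h (V q) < c₁ := by
    have hcts : ContinuousAt (fun q => Jf h (V q)) p :=
      (continuous_Jf h).continuousAt.comp hA.continuousAt
    obtain ⟨r₂, hr₂, hsub⟩ := Metric.mem_nhds_iff.1 (hcts.eventually_lt_const hc₁)
    exact ⟨r₂, hr₂, fun q hq => hsub hq⟩
  set r : ℝ := min r₁ r₂ / 2 with hrdef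
  have hr : 0 < r := by positivity
  have hr_le : 2 * r ≤ r₁ ∧ 2 * r ≤ r₂ := by
    rw [hrdef]
    exact ⟨by linarith [min_le_left r₁ r₂], by linarith [min_le_right r₁ r₂]⟩
  refine ⟨r, hr, fun K hK hKr η hη => ?_⟩
  -- outer regularity
  have hKfin : volume K ≠ ⊤ := hK.measure_lt_top.ne
  obtain ⟨O, hKO, hO, hOvol⟩ := K.exists_isOpen_lt_add hKfin
    (ε := ENNReal.ofReal (η / c)) (by simpa using div_pos hη hc0)
  have hOfin : volume O ≠ ⊤ := (hOvol.trans (ENNReal.add_lt_top.2 ⟨hKfin.lt_top,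
    ENNReal.ofReal_lt_top⟩)).ne
  have hOreal : volume.real O ≤ volume.real K + η / c := by
    have := ENNReal.toReal_mono (ENNReal.add_ne_top.2 ⟨hKfin, ENNReal.ofReal_ne_top⟩) hOvol.le
    rwa [ENNReal.toReal_add hKfin ENNReal.ofReal_ne_top,
      ENNReal.toReal_ofReal (div_pos hη hc0).le] at this
  obtain ⟨δ₀, hδ₀, hthick⟩ := hK.exists_cthickening_subset_open hO hKO
  set δ : ℝ := min δ₀ (r / 2) / (C + 1) with hδdef
  have hδ : 0 < δ := by positivity
  have hδ₁ : δ * C + δ ≤ δ₀ := by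
    have : δ * (C + 1) = min δ₀ (r / 2) := by rw [hδdef]; field_simp
    nlinarith [min_le_left δ₀ (r / 2)]
  have hδ₂ : δ * C + δ ≤ r / 2 := by
    have : δ * (C + 1) = min δ₀ (r / 2) := by rw [hδdef]; field_simp
    nlinarith [min_le_right δ₀ (r / 2)]
  -- index set
  let Z : Set (ℤ × ℤ) := {kj | ∃ q ∈ K, ‖q - gp e δ kj‖ ≤ δ * C}
  have hZball : ∀ kj ∈ Z, gp e δ kj ∈ Metric.ball p (2 * r) := by
    rintro kj ⟨q, hq, hqk⟩
    have h1 := mem_closedBall_iff_norm.1 (hKr hq)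
    rw [mem_ball_iff_norm]
    calc ‖gp e δ kj - p‖ = ‖(q - p) - (q - gp e δ kj)‖ := by congr 1; abel
      _ ≤ ‖q - p‖ + ‖q - gp e δ kj‖ := norm_sub_le _ _
      _ < 2 * r := by linarith
  have hZfin : Z.Finite := by
    set B : ℝ := ‖p‖ + 2 * r with hB
    set M : ℤ := ⌈B / δ⌉ with hM
    have hMB : B ≤ δ * M := by
      have := Int.le_ceil (B / δ)
      rw [div_le_iff₀ hδ] at this
      rw [hM]; linarith
    refine Set.Finite.subset ((Set.finite_Icc (-M) M).prod (Set.finite_Icc (-M) M)) ?_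
    rintro ⟨k, j⟩ hkj
    have h1 := hZball _ hkj
    rw [mem_ball_iff_norm] at h1
    have h2 : ‖gp e δ (k, j)‖ ≤ B := by
      calc ‖gp e δ (k, j)‖ = ‖(gp e δ (k, j) - p) + p‖ := by congr 1; abel
        _ ≤ ‖gp e δ (k, j) - p‖ + ‖p‖ := norm_add_le _ _
        _ ≤ B := by rw [hB]; linarith
    have h3 := (abs_inner_e_le e 0 (gp e δ (k, j))).trans (h2.trans hMB)
    have h4 := (abs_inner_e_le e 1 (gp e δ (k, j))).trans (h2.trans hMB)
    rw [inner_e0_gp, abs_mul, abs_of_pos hδ] at h3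
    rw [inner_e1_gp, abs_mul, abs_of_pos hδ] at h4
    have h5 : |(k : ℝ)| ≤ M := le_of_mul_le_mul_left h3 hδ
    have h6 : |(j : ℝ)| ≤ M := le_of_mul_le_mul_left h4 hδ
    have h5' : |k| ≤ M := by exact_mod_cast h5
    have h6' : |j| ≤ M := by exact_mod_cast h6
    exact ⟨⟨(abs_le.1 h5').1, (abs_le.1 h5').2⟩, ⟨(abs_le.1 h6').1, (abs_le.1 h6').2⟩⟩
  have : Fintype Z := hZfin.fintype
  set σ : ℝ := δ * (1 + κ) with hσdef
  have hσ : 0 < σ := by positivity
  -- volume count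
  have hcount : (Fintype.card Z : ℝ) * δ ^ 2 ≤ volume.real O := by
    have h1 : ∑ kj : Z, volume (cell e δ kj) ≤ volume O := by
      have hU := measure_iUnion (μ := (volume : Measure E2)) (f := fun kj : Z => cell e δ kj)
        (fun i j hij => disjoint_cell e δ hδ (fun h => hij (Subtype.ext h)))
        (fun i => measurableSet_cell e δ i)
      rw [tsum_fintype] at hU
      rw [← hU]
      refine measure_mono (iUnion_subset ?_)
      rintro ⟨kj, q, hq, hqk⟩ x hx
      apply hthick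
      refine Metric.mem_cthickening_of_dist_le x q δ₀ K hq ?_
      rw [dist_eq_norm]
      calc ‖x - q‖ = ‖(x - gp e δ kj) - (q - gp e δ kj)‖ := by congr 1; abel
        _ ≤ ‖x - gp e δ kj‖ + ‖q - gp e δ kj‖ := norm_sub_le _ _
        _ ≤ δ₀ := by linarith [norm_sub_gp_of_mem_cell e δ kj hx]
    simp only [volume_cell e δ hδ, Finset.sum_const, Finset.card_univ, nsmul_eq_mul] at h1
    have h2 := ENNReal.toReal_mono hOfin h1
    rw [ENNReal.toReal_mul, ENNReal.toReal_natCast, ENNReal.toReal_ofReal (by positivity)] at h2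
    exact h2
  refine Cov.of_fintype (ι := Z) (fun kj => gp e δ kj - (σ / 2) • e 0 - (σ / 2) • e 1)
    (fun _ => σ • e 0) (fun _ => σ • e 1) (fun kj => V (gp e δ kj)) ?_ ?_ ?_
  · intro i
    refine ⟨?_, ?_, ?_⟩
    · intro h0
      have := congrArg norm h0
      rw [norm_smul, e.norm_eq_one, norm_zero] at this
      simp [hσ.ne'] at this
    · rw [norm_smul, norm_smul, e.norm_eq_one, e.norm_eq_one]
    · rw [inner_smul_left, inner_smul_right, e.inner_eq_zero (show (0 : Fin 2) ≠ 1 by decide)]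
      simp
  · intro q hq s hs
    have hqball : q ∈ Metric.ball p r₁ := by
      have h1 := mem_closedBall_iff_norm.1 (hKr hq)
      rw [mem_ball_iff_norm]
      linarith [hr_le.1]
    have herr : ∀ g : E2, ‖q - g‖ ≤ δ * C → L * ‖V q - V g - A (q - g)‖ ≤ δ * κ / 2 := by
      intro g hg
      have hgball : g ∈ Metric.ball p r₁ := by
        have h1 := mem_closedBall_iff_norm.1 (hKr hq)
        rw [mem_ball_iff_norm]
        calc ‖g - p‖ = ‖(q - p) - (q - g)‖ := by congr 1; abel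
          _ ≤ ‖q - p‖ + ‖q - g‖ := norm_sub_le _ _
          _ < r₁ := by linarith [hr_le.1]
      have h1 := hball₁ q hqball _ hgball
      have h2 : ‖V q - V g - A (q - g)‖ ≤ θ * (δ * C) :=
        h1.trans (mul_le_mul_of_nonneg_left hg hθ.le)
      have h3 : L * (θ * (δ * C)) = δ * κ / 2 := by
        rw [hθdef]; field_simp
      calc L * ‖V q - V g - A (q - g)‖ ≤ L * (θ * (δ * C)) := mul_le_mul_of_nonneg_left h2 hL.le
        _ = _ := h3
    obtain ⟨kj, hnorm, X, Y, hXb, hYb, heq⟩ := local_point V L hL A e α β he0 he1 hαβ0 γ C δ κ hγdef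
      hγ hCdef hδ q s hs herr
    rw [← hσdef] at hXb hYb
    refine ⟨⟨kj, ⟨q, hq, hnorm⟩⟩, (X + σ / 2) / σ, ?_, (Y + σ / 2) / σ, ?_, ?_⟩
    · rw [abs_le] at hXb
      constructor
      · apply div_nonneg _ hσ.le; linarith
      · rw [div_le_one hσ]; linarith
    · rw [abs_le] at hYb
      constructor
      · apply div_nonneg _ hσ.le; linarith
      · rw [div_le_one hσ]; linarith
    · rw [heq]
      have e1 : ((X + σ / 2) / σ) • σ • e 0 = (X + σ / 2) • e 0 := by
        rw [smul_smul]; congr 1; field_simp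
      have e2 : ((Y + σ / 2) / σ) • σ • e 1 = (Y + σ / 2) • e 1 := by
        rw [smul_smul]; congr 1; field_simp
      rw [e1, e2]
      module
  · have hterm : ∀ kj : Z, ‖σ • e 0‖ ^ 2 / Real.sqrt (1 + (V (gp e δ kj) 0) ^ 2 +
        h ^ 2 * (V (gp e δ kj) 1) ^ 2) ≤ δ ^ 2 * c := by
      intro kj
      have h1 : Jf h (V (gp e δ kj)) ≤ c₁ :=
        (hball₂ _ (Metric.ball_subset_ball hr_le.2 (hZball _ kj.2))).le
      have h2 : ‖σ • e 0‖ ^ 2 / Real.sqrt (1 + (V (gp e δ kj) 0) ^ 2 +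
        h ^ 2 * (V (gp e δ kj) 1) ^ 2) = σ ^ 2 * Jf h (V (gp e δ kj)) := by
        rw [norm_smul, e.norm_eq_one, mul_one, Real.norm_eq_abs, sq_abs]
        unfold Jf
        ring
      rw [h2, hσdef]
      calc (δ * (1 + κ)) ^ 2 * Jf h (V (gp e δ kj)) ≤ (δ * (1 + κ)) ^ 2 * c₁ := by gcongr
        _ = δ ^ 2 * ((1 + κ) ^ 2 * c₁) := by ring
        _ ≤ δ ^ 2 * c := by gcongr
    calc _ ≤ ∑ kj : Z, δ ^ 2 * c := Finset.sum_le_sum fun kj _ => hterm kj
      _ = (Fintype.card Z * δ ^ 2) * c := by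
        rw [Finset.sum_const, Finset.card_univ, nsmul_eq_mul]; ring
      _ ≤ volume.real O * c := by gcongr
      _ ≤ (volume.real K + η / c) * c := by gcongr
      _ = c * volume.real K + η := by field_simp

end Crest.Agent.R211.Ruled
end

-- ▼ part R211/RuledGlobal

set_option autoImplicit false
open MeasureTheory Set

namespace Crest.Agent.R211.Ruled

lemma cov_global (V : E2 → E2) (L h : ℝ) (D : Set E2) (hD : IsCompact D) (hV : ContinuousOn V D)
    (loc : ∀ p ∈ D, ∀ c, Jf h (V p) < c → ∃ r > 0, ∀ K : Set E2, IsCompact K →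
      K ⊆ Metric.closedBall p r → ∀ η > 0, Cov V L h K (c * volume.real K + η))
    (ε : ℝ) (hε : 0 < ε) :
    Cov V L h D ((∫ p in D, Jf h (V p)) + ε) := by
  have hvD : 0 ≤ volume.real D := measureReal_nonneg
  set ε₁ : ℝ := ε / (4 * (volume.real D + 1)) with hε₁
  have hε₁0 : 0 < ε₁ := by positivity
  set F : E2 → ℝ := fun q => Jf h (V q) + 2 * ε₁ with hF
  have hJc : ContinuousOn (fun q => Jf h (V q)) D := (continuous_Jf h).comp_continuousOn hV
  have hFc : ContinuousOn F D := hJc.add continuousOn_const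
  have hFi : IntegrableOn F D := hFc.integrableOn_compact hD
  -- local statement
  have h1 : ∀ p ∈ D, ∃ r > 0, ∀ K : Set E2, IsCompact K → K ⊆ D → K ⊆ Metric.closedBall p r →
      ∀ η > 0, Cov V L h K ((∫ q in K, F q) + η) := by
    intro p hp
    obtain ⟨r₁, hr₁, hloc⟩ := loc p hp (Jf h (V p) + ε₁) (by linarith)
    have hcw := (hJc p hp).eventually_const_lt (show Jf h (V p) - ε₁ < Jf h (V p) by linarith)
    obtain ⟨r₂, hr₂, hsub⟩ := Metric.mem_nhdsWithin_iff.1 hcw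
    refine ⟨min r₁ (r₂ / 2), by positivity, fun K hK hKD hKr η hη => ?_⟩
    have hK1 : K ⊆ Metric.closedBall p r₁ :=
      hKr.trans (Metric.closedBall_subset_closedBall (min_le_left _ _))
    refine (hloc K hK hK1 η hη).mono subset_rfl ?_
    have hle : (Jf h (V p) + ε₁) * volume.real K ≤ ∫ q in K, F q := by
      have hc : ∫ q in K, (Jf h (V p) + ε₁) = (Jf h (V p) + ε₁) * volume.real K := by
        rw [setIntegral_const, smul_eq_mul, mul_comm]
      rw [← hc]
      refine setIntegral_mono_on (integrableOn_const hK.measure_lt_top.ne)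
        (hFi.mono_set hKD) hK.measurableSet ?_
      intro q hq
      have hqb : q ∈ Metric.ball p r₂ := by
        have := hKr hq
        rw [Metric.mem_closedBall] at this
        rw [Metric.mem_ball]
        linarith [min_le_right r₁ (r₂ / 2)]
      have : Jf h (V p) - ε₁ < Jf h (V q) := hsub ⟨hqb, hKD hq⟩
      simp only [hF]
      linarith
    linarith
  choose! r hr hrK using h1
  obtain ⟨t, htD, hDt⟩ := hD.elim_nhds_subcover (fun p => Metric.ball p (r p))
    (fun p hp => Metric.ball_mem_nhds p (hr p hp))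
  have claim : ∀ t : Finset E2, (∀ x ∈ t, x ∈ D) → ∀ K : Set E2, IsCompact K → K ⊆ D →
      K ⊆ ⋃ p ∈ t, Metric.ball p (r p) → ∀ η > 0, Cov V L h K ((∫ q in K, F q) + η) := by
    classical
    intro t
    induction t using Finset.induction_on with
    | empty =>
      intro _ K hK hKD hKt η hη
      have : K = ∅ := by
        apply eq_empty_of_subset_empty
        simpa using hKt
      subst this
      apply Cov.empty
      simp [hη.le]
    | insert p t hpt ih =>
      intro hsub K hK hKD hKt η hη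
      have hpD : p ∈ D := hsub p (Finset.mem_insert_self _ _)
      set K₁ := K ∩ Metric.closedBall p (r p) with hK₁
      set K₂ := K \ Metric.ball p (r p) with hK₂
      have hK₁c : IsCompact K₁ := hK.inter_right Metric.isClosed_closedBall
      have hK₂c : IsCompact K₂ := hK.diff Metric.isOpen_ball
      have hKu : K₁ ∪ K₂ = K := by
        ext x
        simp only [hK₁, hK₂, mem_union, mem_inter_iff, mem_sdiff]
        constructor
        · rintro (h | h) <;> exact h.1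
        · intro hx
          by_cases hb : x ∈ Metric.ball p (r p)
          · left; exact ⟨hx, Metric.ball_subset_closedBall hb⟩
          · right; exact ⟨hx, hb⟩
      have hdisj : AEDisjoint volume K₁ K₂ := by
        refine measure_mono_null ?_ (Measure.addHaar_sphere volume p (r p))
        rintro x ⟨⟨_, h1⟩, ⟨_, h2⟩⟩
        rw [Metric.mem_closedBall] at h1
        rw [Metric.mem_ball, not_lt] at h2
        exact le_antisymm h1 h2
      have hint : ∫ q in K, F q = (∫ q in K₁, F q) + ∫ q in K₂, F q := by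
        rw [← hKu]
        exact setIntegral_union₀ hdisj hK₂c.measurableSet.nullMeasurableSet
          (hFi.mono_set (inter_subset_left.trans hKD)) (hFi.mono_set (sdiff_subset.trans hKD))
      have c1 := hrK p hpD K₁ hK₁c (inter_subset_left.trans hKD) inter_subset_right (η / 2)
        (by linarith)
      have c2 := ih (fun x hx => hsub x (Finset.mem_insert_of_mem hx)) K₂ hK₂c
        (sdiff_subset.trans hKD) (by
          rintro x ⟨hx, hxb⟩
          have := hKt hx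
          rw [Finset.set_biUnion_insert] at this
          rcases this with h | h
          · exact absurd h hxb
          · exact h) (η / 2) (by linarith)
      have c3 := c1.union c2
      rw [hKu] at c3
      refine c3.mono subset_rfl ?_
      rw [hint]
      linarith
  refine (claim t htD D hD subset_rfl hDt (ε / 2) (by linarith)).mono subset_rfl ?_
  have : ∫ q in D, F q = (∫ q in D, Jf h (V q)) + 2 * ε₁ * volume.real D := by
    simp only [hF]
    rw [integral_add (hJc.integrableOn_compact hD) (integrableOn_const hD.measure_lt_top.ne),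
      setIntegral_const, smul_eq_mul]
    ring
  rw [this]
  have h3 : 2 * ε₁ * volume.real D ≤ ε / 2 := by
    rw [hε₁]
    have : 2 * (ε / (4 * (volume.real D + 1))) * volume.real D =
      (ε / 2) * (volume.real D / (volume.real D + 1)) := by field_simp; ring
    rw [this]
    have h4 : volume.real D / (volume.real D + 1) ≤ 1 := by
      rw [div_le_one (by positivity)]; linarith
    nlinarith
  linarith

end Crest.Agent.R211.Ruled
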