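import Crest.Agent.R211.Area

-- ▼ part R211/Sweep
section

/-! Helper lemmas for S0328 (radial sweeps). -/

set_option autoImplicit false
open MeasureTheory
open scoped ENNReal

namespace Crest.Agent.R211

section Gram
variable {E : Type*} [NormedAddCommGroup E] [InnerProductSpace ℝ E]

theorem gramArea_pos_of_linearIndependent {a b : E} (h : LinearIndependent ℝ ![a, b]) :
    0 < gramArea a b := by
  rw [gramArea, Real.sqrt_pos]
  rcases (gram_nonneg a b).lt_or_eq with h1 | h1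
  · exact h1
  · exfalso
    rw [LinearIndependent.pair_iff] at h
    have hv : ‖(‖b‖ ^ 2) • a - (inner ℝ a b : ℝ) • b‖ ^ 2 = 0 := by
      rw [norm_sub_sq_real, norm_smul, norm_smul, real_inner_smul_left, real_inner_smul_right,
        mul_pow, mul_pow, Real.norm_eq_abs, Real.norm_eq_abs, sq_abs, sq_abs]
      linear_combination (-‖b‖ ^ 2) * h1
    have hv' : (‖b‖ ^ 2) • a - (inner ℝ a b : ℝ) • b = 0 := by
      rw [← norm_eq_zero]; exact pow_eq_zero_iff (two_ne_zero) |>.mp hv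
    have h2 := h (‖b‖ ^ 2) (-(inner ℝ a b : ℝ)) (by rw [neg_smul, ← sub_eq_add_neg]; exact hv')
    have hb : b = 0 := by
      rw [← norm_eq_zero]; exact pow_eq_zero_iff (two_ne_zero) |>.mp h2.1
    have h3 := h 0 1 (by rw [hb]; simp)
    exact one_ne_zero h3.2

theorem eq_zero_of_gramArea_ne_zero {A B : E} (h : gramArea A B ≠ 0) {x y : ℝ}
    (hxy : x • A + y • B = 0) : x = 0 ∧ y = 0 := by
  have hg : ‖A‖ ^ 2 * ‖B‖ ^ 2 - inner ℝ A B ^ 2 ≠ 0 := by
    intro h0; apply h; rw [gramArea, h0, Real.sqrt_zero]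
  have h1 : x * ‖A‖ ^ 2 + y * inner ℝ A B = 0 := by
    have := congrArg (fun z => inner ℝ z A) hxy
    simp only [inner_add_left, real_inner_smul_left, inner_zero_left] at this
    rw [real_inner_self_eq_norm_sq, real_inner_comm] at this
    exact this
  have h2 : x * inner ℝ A B + y * ‖B‖ ^ 2 = 0 := by
    have := congrArg (fun z => inner ℝ z B) hxy
    simp only [inner_add_left, real_inner_smul_left, inner_zero_left] at this
    rw [real_inner_self_eq_norm_sq] at this
    exact this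
  constructor
  · have : x * (‖A‖ ^ 2 * ‖B‖ ^ 2 - inner ℝ A B ^ 2) = 0 := by
      linear_combination ‖B‖ ^ 2 * h1 - inner ℝ A B * h2
    exact (mul_eq_zero.mp this).resolve_right hg
  · have : y * (‖A‖ ^ 2 * ‖B‖ ^ 2 - inner ℝ A B ^ 2) = 0 := by
      linear_combination ‖A‖ ^ 2 * h2 - inner ℝ A B * h1
    exact (mul_eq_zero.mp this).resolve_right hg

theorem affineIndependent_of_gramArea_ne_zero {p q r : E}
    (h : gramArea (q - p) (r - p) ≠ 0) : AffineIndependent ℝ ![p, q, r] := by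
  rw [affineIndependent_iff_of_fintype]
  intro w hw hs
  rw [Finset.weightedVSub_eq_linear_combination _ hw] at hs
  simp only [Fin.sum_univ_three, Matrix.cons_val_zero, Matrix.cons_val_one,
    Matrix.cons_val] at hw hs
  have h1 : w 1 • (q - p) + w 2 • (r - p) = 0 := by
    have h0 : w 0 = -w 1 - w 2 := by linarith
    rw [h0] at hs
    rw [← hs]
    module
  obtain ⟨h2, h3⟩ := eq_zero_of_gramArea_ne_zero h h1
  intro i
  fin_cases i
  · simp; linarith
  · exact h2
  · exact h3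

/-- gram area of `D • (a + t • b)`, `D • (a + t' • b)`. -/
theorem gramArea_fan (a b : E) (D t t' : ℝ) (htt : t ≤ t') :
    gramArea (D • (a + t • b)) (D • (a + t' • b)) = D ^ 2 * (t' - t) * gramArea a b := by
  have h0 : 0 ≤ D ^ 2 * (t' - t) * gramArea a b :=
    mul_nonneg (mul_nonneg (sq_nonneg _) (by linarith)) (gramArea_nonneg _ _)
  rw [← Real.sqrt_sq h0, gramArea]
  congr 1
  rw [mul_pow, mul_pow, gramArea_sq]
  simp only [← real_inner_self_eq_norm_sq, inner_add_left, inner_add_right, real_inner_smul_left,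
    real_inner_smul_right, real_inner_comm b a]
  ring

end Gram

/-- Riemann-sum estimate. -/
theorem riemann_estimate {α β : ℝ} (f : ℝ → ℝ) (hf : ContinuousOn f (Set.Icc α β)) (N : ℕ)
    (t : Fin (N + 1) → ℝ) (ht : StrictMono t) (h0 : t 0 = α) (hN : t (Fin.last N) = β)
    (X : Fin N → ℝ) (ε : ℝ)
    (hX1 : ∀ i, ∀ τ ∈ Set.Icc (t i.castSucc) (t i.succ),
      (t i.succ - t i.castSucc) * (f τ - ε) ≤ X i)
    (hX2 : ∀ i, ∀ τ ∈ Set.Icc (t i.castSucc) (t i.succ),
      X i ≤ (t i.succ - t i.castSucc) * (f τ + ε)) :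
    |∑ i, X i - ∫ τ in α..β, f τ| ≤ ε * (β - α) := by
  have hsub : ∀ i : Fin N, Set.Icc (t i.castSucc) (t i.succ) ⊆ Set.Icc α β := by
    intro i
    apply Set.Icc_subset_Icc
    · rw [← h0]; exact ht.monotone (Fin.zero_le _)
    · rw [← hN]; exact ht.monotone (Fin.le_last _)
  have hle : ∀ i : Fin N, t i.castSucc < t i.succ := fun i => ht (Fin.castSucc_lt_succ)
  -- integrals over the pieces
  have hint : ∀ i : Fin N, IntervalIntegrable f volume (t i.castSucc) (t i.succ) := by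
    intro i
    apply ContinuousOn.intervalIntegrable
    rw [Set.uIcc_of_le (hle i).le]
    exact hf.mono (hsub i)
  let a : ℕ → ℝ := fun k => if h : k < N + 1 then t ⟨k, h⟩ else 0
  have ha : ∀ i : Fin N, a i = t i.castSucc ∧ a (i + 1) = t i.succ := by
    intro i
    constructor
    · simp only [a]
      rw [dif_pos (by omega)]; rfl
    · simp only [a]
      rw [dif_pos (by omega)]; rfl
  have hsum : ∑ i : Fin N, ∫ τ in (t i.castSucc)..(t i.succ), f τ = ∫ τ in α..β, f τ := by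
    have h1 : ∑ i : Fin N, ∫ τ in (t i.castSucc)..(t i.succ), f τ =
        ∑ k ∈ Finset.range N, ∫ τ in (a k)..(a (k + 1)), f τ := by
      rw [← Fin.sum_univ_eq_sum_range (fun k => ∫ τ in (a k)..(a (k + 1)), f τ)]
      apply Finset.sum_congr rfl
      intro i _
      rw [(ha i).1, (ha i).2]
    rw [h1, intervalIntegral.sum_integral_adjacent_intervals]
    · have ha0 : a 0 = α := by
        simp only [a]
        rw [dif_pos (by omega), ← h0]; rfl
      have haN : a N = β := by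
        simp only [a]
        rw [dif_pos (by omega), ← hN]; rfl
      rw [ha0, haN]
    · intro k hk
      have := hint ⟨k, hk⟩
      have h2 := ha ⟨k, hk⟩
      simp only at h2
      rw [h2.1, h2.2]
      exact this
  have hsumlen : ∑ i : Fin N, (t i.succ - t i.castSucc) = β - α := by
    have h1 : ∑ i : Fin N, (t i.succ - t i.castSucc) =
        ∑ k ∈ Finset.range N, (a (k + 1) - a k) := by
      rw [← Fin.sum_univ_eq_sum_range (fun k => a (k + 1) - a k)]
      apply Finset.sum_congr rfl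
      intro i _
      rw [(ha i).1, (ha i).2]
    rw [h1, Finset.sum_range_sub]
    simp only [a]
    rw [dif_pos (by omega), dif_pos (by omega), ← h0, ← hN]; rfl
  rw [← hsum, ← Finset.sum_sub_distrib]
  refine (Finset.abs_sum_le_sum_abs _ _).trans ?_
  rw [← hsumlen, Finset.mul_sum]
  apply Finset.sum_le_sum
  intro i _
  have hli := hle i
  have hpos : 0 < t i.succ - t i.castSucc := by linarith
  set H := t i.succ - t i.castSucc with hH
  -- lower and upper bounds of integral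
  have hlow : (X i / H - ε) * H ≤ ∫ τ in (t i.castSucc)..(t i.succ), f τ := by
    have := intervalIntegral.integral_mono_on (μ := volume) (f := fun _ => X i / H - ε) (g := f)
      hli.le (by simp) (hint i) (by
        intro τ hτ
        have h2 := hX2 i τ hτ
        have : X i / H ≤ f τ + ε := by
          rw [div_le_iff₀ hpos]; linarith
        linarith)
    rw [intervalIntegral.integral_const, smul_eq_mul] at this
    linarith
  have hup : ∫ τ in (t i.castSucc)..(t i.succ), f τ ≤ (X i / H + ε) * H := by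
    have := intervalIntegral.integral_mono_on (μ := volume) (g := fun _ => X i / H + ε) (f := f)
      hli.le (hint i) (by simp) (by
        intro τ hτ
        have h2 := hX1 i τ hτ
        have : f τ - ε ≤ X i / H := by
          rw [le_div_iff₀ hpos]; linarith
        linarith)
    rw [intervalIntegral.integral_const, smul_eq_mul] at this
    linarith
  have hXH : X i / H * H = X i := by field_simp
  rw [abs_le]
  constructor <;> nlinarith [hlow, hup]

/-- decomposition of the increments of `w`. -/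
theorem increment_decomp {a b : E3} {α β : ℝ} {w : ℝ → E3} {lam : ℝ → ℝ}
    (hlam : ContinuousOn lam (Set.Icc α β))
    (hw' : ∀ t ∈ Set.Icc α β, HasDerivWithinAt w (lam t • (a + t • b)) (Set.Icc α β) t)
    {M : ℝ} (hM : ∀ t ∈ Set.Icc α β, |lam t| ≤ M) {t₁ t₂ : ℝ} (h1 : α ≤ t₁) (h2 : t₂ ≤ β)
    {c τ : ℝ} (hc : c ∈ Set.Icc t₁ t₂) (hτ : τ ∈ Set.Icc t₁ t₂) :
    ∃ x y : ℝ, w τ - w c = x • a + y • b ∧ |x| ≤ M * (t₂ - t₁) ∧
      |y - t₁ * x| ≤ M * (t₂ - t₁) ^ 2 ∧ |y - t₂ * x| ≤ M * (t₂ - t₁) ^ 2 := by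
  have hsub : Set.Icc t₁ t₂ ⊆ Set.Icc α β := Set.Icc_subset_Icc h1 h2
  have hu : Set.uIcc c τ ⊆ Set.Icc t₁ t₂ := Set.uIcc_subset_Icc hc hτ
  have huΙ : Set.uIoc c τ ⊆ Set.Icc t₁ t₂ := fun z hz => hu (Set.uIoc_subset_uIcc hz)
  have hcont : ContinuousOn lam (Set.uIcc c τ) := hlam.mono (hu.trans hsub)
  have hM0 : 0 ≤ M := (abs_nonneg _).trans (hM c (hsub hc))
  have hint1 : IntervalIntegrable lam volume c τ := hcont.intervalIntegrable
  have hint2 : IntervalIntegrable (fun t => t * lam t) volume c τ :=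
    (continuousOn_id.mul hcont).intervalIntegrable
  have hdist : |τ - c| ≤ t₂ - t₁ := by
    rw [abs_le]; constructor <;> linarith [hc.1, hc.2, hτ.1, hτ.2]
  refine ⟨∫ t in c..τ, lam t, ∫ t in c..τ, t * lam t, ?_, ?_, ?_, ?_⟩
  · have hFTC : ∫ t in c..τ, lam t • (a + t • b) = w τ - w c := by
      apply intervalIntegral.integral_eq_sub_of_hasDeriv_right
      · intro z hz
        exact (hw' z (hsub (hu hz))).continuousWithinAt.mono (hu.trans hsub)
      · intro z hz
        have hz' : z ∈ Set.Ioo α β := by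
          have hz1 := hz.1
          have hz2 := hz.2
          constructor
          · have : α ≤ min c τ := le_min (h1.trans hc.1) (h1.trans hτ.1)
            linarith
          · have : max c τ ≤ β := max_le (hc.2.trans h2) (hτ.2.trans h2)
            linarith
        have hd := (hw' z (Set.Ioo_subset_Icc_self hz')).hasDerivAt (Icc_mem_nhds hz'.1 hz'.2)
        exact hd.hasDerivWithinAt
      · apply ContinuousOn.intervalIntegrable
        exact hcont.smul (continuousOn_const.add (continuousOn_id.smul continuousOn_const))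
    rw [← hFTC]
    have : (fun t => lam t • (a + t • b)) = fun t => lam t • a + (t * lam t) • b := by
      funext t; rw [smul_add, smul_smul, mul_comm (lam t) t]
    rw [this, intervalIntegral.integral_add, intervalIntegral.integral_smul_const,
      intervalIntegral.integral_smul_const]
    · exact (hcont.smul continuousOn_const).intervalIntegrable
    · exact ((continuousOn_id.mul hcont).smul continuousOn_const).intervalIntegrable
  · have := intervalIntegral.norm_integral_le_of_norm_le_const (f := lam) (a := c) (b := τ)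
      (C := M) (fun z hz => hM z (hsub (huΙ hz)))
    rw [Real.norm_eq_abs] at this
    exact this.trans (mul_le_mul_of_nonneg_left hdist hM0)
  · have he : (∫ t in c..τ, t * lam t) - t₁ * ∫ t in c..τ, lam t =
        ∫ t in c..τ, (t - t₁) * lam t := by
      rw [← intervalIntegral.integral_const_mul, ← intervalIntegral.integral_sub hint2
        (hint1.const_mul _)]
      congr 1; funext t; ring
    rw [he]
    have := intervalIntegral.norm_integral_le_of_norm_le_const (f := fun t => (t - t₁) * lam t)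
      (a := c) (b := τ) (C := (t₂ - t₁) * M) (fun z hz => by
        rw [Real.norm_eq_abs, abs_mul]
        have hz' := huΙ hz
        apply mul_le_mul _ (hM z (hsub hz')) (abs_nonneg _) (by linarith [hz'.1, hz'.2])
        rw [abs_of_nonneg (by linarith [hz'.1])]; linarith [hz'.2])
    rw [Real.norm_eq_abs] at this
    refine this.trans ?_
    have hn : 0 ≤ (t₂ - t₁) * M := mul_nonneg (by linarith [hc.1, hc.2]) hM0
    calc (t₂ - t₁) * M * |τ - c| ≤ (t₂ - t₁) * M * (t₂ - t₁) :=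
          mul_le_mul_of_nonneg_left hdist hn
      _ = M * (t₂ - t₁) ^ 2 := by ring
  · have he : (∫ t in c..τ, t * lam t) - t₂ * ∫ t in c..τ, lam t =
        ∫ t in c..τ, (t - t₂) * lam t := by
      rw [← intervalIntegral.integral_const_mul, ← intervalIntegral.integral_sub hint2
        (hint1.const_mul _)]
      congr 1; funext t; ring
    rw [he]
    have := intervalIntegral.norm_integral_le_of_norm_le_const (f := fun t => (t - t₂) * lam t)
      (a := c) (b := τ) (C := (t₂ - t₁) * M) (fun z hz => by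
        rw [Real.norm_eq_abs, abs_mul]
        have hz' := huΙ hz
        apply mul_le_mul _ (hM z (hsub hz')) (abs_nonneg _) (by linarith [hz'.1, hz'.2])
        rw [abs_of_nonpos (by linarith [hz'.2])]; linarith [hz'.1])
    rw [Real.norm_eq_abs] at this
    refine this.trans ?_
    have hn : 0 ≤ (t₂ - t₁) * M := mul_nonneg (by linarith [hc.1, hc.2]) hM0
    calc (t₂ - t₁) * M * |τ - c| ≤ (t₂ - t₁) * M * (t₂ - t₁) :=
          mul_le_mul_of_nonneg_left hdist hn
      _ = M * (t₂ - t₁) ^ 2 := by ring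

/-! ### The base triangles -/

/-- unit vector in direction `d`. -/
noncomputable def unitv (d : E3) : E3 := ‖d‖⁻¹ • d

/-- apex of the bounding triangle -/
noncomputable def apex (a b p₀ : E3) (t₁ t₂ C : ℝ) : E3 :=
  p₀ + (-(2 * C * (t₂ - t₁))) • a + (-(2 * C * (t₂ - t₁) * t₁) - C * (t₂ - t₁) ^ 2) • b

theorem mem_bounding_triangle (a b p₀ : E3) {t₁ t₂ C Rm : ℝ} (ht : t₁ < t₂) (hC : 0 < C)
    (hR : 0 ≤ Rm) {u v : ℝ} (hu : u ≤ Rm + C * (t₂ - t₁))
    (hv1 : t₁ * u - C * (t₂ - t₁) ^ 2 ≤ v) (hv2 : v ≤ t₂ * u + C * (t₂ - t₁) ^ 2) :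
    p₀ + u • a + v • b ∈ convexHull ℝ {apex a b p₀ t₁ t₂ C,
      apex a b p₀ t₁ t₂ C + (Rm + 3 * C * (t₂ - t₁)) • (a + t₁ • b),
      apex a b p₀ t₁ t₂ C + (Rm + 3 * C * (t₂ - t₁)) • (a + t₂ • b)} := by
  have hh : 0 < t₂ - t₁ := by linarith
  set h := t₂ - t₁ with hdef
  have ht2 : t₂ = t₁ + h := by rw [hdef]; ring
  set D := Rm + 3 * C * h with hD
  have hDpos : 0 < D := by positivity
  rw [convexHull_triple_eq_image]
  refine ⟨!₂[(t₂ * u + C * h ^ 2 - v) / (h * D), (v - t₁ * u + C * h ^ 2) / (h * D)],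
    ⟨?_, ?_, ?_⟩, ?_⟩
  · simp only [Matrix.cons_val_zero]
    apply div_nonneg _ (by positivity)
    linarith
  · simp only [Matrix.cons_val_one]
    apply div_nonneg _ (by positivity)
    linarith
  · simp only [Matrix.cons_val_zero, Matrix.cons_val_one]
    rw [← add_div, div_le_one (by positivity), ht2, hD]
    nlinarith [hu, hh]
  · simp only [Matrix.cons_val_zero, Matrix.cons_val_one, add_sub_cancel_left]
    unfold apex
    rw [← hdef]
    have h1 : ∀ c₁ c₂ : ℝ, c₁ • (D • (a + t₁ • b)) + c₂ • (D • (a + t₂ • b)) =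
        ((c₁ + c₂) * D) • a + ((c₁ * t₁ + c₂ * t₂) * D) • b := by
      intro c₁ c₂; module
    rw [h1]
    have e1 : ((t₂ * u + C * h ^ 2 - v) / (h * D) + (v - t₁ * u + C * h ^ 2) / (h * D)) * D =
        u + 2 * C * h := by
      field_simp
      rw [ht2]; ring
    have e2 : ((t₂ * u + C * h ^ 2 - v) / (h * D) * t₁ + (v - t₁ * u + C * h ^ 2) / (h * D) * t₂) * D =
        v + 2 * C * h * t₁ + C * h ^ 2 := by
      field_simp
      rw [ht2]; ring
    rw [e1, e2]
    module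

theorem norm_unitv {e w : E3} (he : ‖e‖ = 1) (hw : inner ℝ w e = 0) : ‖unitv (e + w)‖ = 1 :=
  norm_unit (norm_add_perp_pos he hw)

theorem inner_proj_unitv {e w : E3} (he : ‖e‖ = 1) (hw : inner ℝ w e = 0) (y : E3) :
    inner ℝ (proj (unitv (e + w)) y) (e + w) = 0 := by
  have h := inner_proj (norm_unitv he hw) y
  have hpos := norm_add_perp_pos he hw
  have h2 : e + w = ‖e + w‖ • unitv (e + w) := by
    unfold unitv
    rw [smul_smul, mul_inv_cancel₀ hpos.ne', one_smul]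
  rw [h2, real_inner_smul_right, ← h2, h, mul_zero]

theorem proj_unitv_add_smul {e w : E3} (he : ‖e‖ = 1) (hw : inner ℝ w e = 0) (y : E3) (s : ℝ) :
    proj (unitv (e + w)) (y + s • (e + w)) = proj (unitv (e + w)) y := by
  have hpos := norm_add_perp_pos he hw
  rw [map_add, LinearMap.map_smul]
  have : proj (unitv (e + w)) (e + w) = 0 := by
    rw [proj_apply]
    unfold unitv
    rw [real_inner_smul_right, real_inner_self_eq_norm_sq, smul_smul]
    have : ‖e + w‖⁻¹ * ‖e + w‖ ^ 2 * ‖e + w‖⁻¹ = 1 := by field_simp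
    rw [this, one_smul, sub_self]
  rw [this, smul_zero, add_zero]

theorem eq_proj_unitv_add (d y : E3) : ∃ σ : ℝ, y = proj (unitv d) y + σ • d := by
  refine ⟨inner ℝ y (unitv d) * ‖d‖⁻¹, ?_⟩
  rw [proj_apply, mul_smul]
  change y = y - inner ℝ y (unitv d) • unitv d + inner ℝ y (unitv d) • unitv d
  abel

/-- area of a projected fan triangle -/
theorem muHE_fan_triangle {e a b w : E3} (he : ‖e‖ = 1) (ha : inner ℝ a e = 0)
    (hb : inner ℝ b e = 0) (hw : inner ℝ w e = 0) (V : E3) {D t₁ t₂ : ℝ} (ht : t₁ ≤ t₂) :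
    gramArea (proj (unitv (e + w)) (V + D • (a + t₁ • b)) - proj (unitv (e + w)) V)
      (proj (unitv (e + w)) (V + D • (a + t₂ • b)) - proj (unitv (e + w)) V) =
    D ^ 2 * (t₂ - t₁) * gramArea a b / Real.sqrt (1 + ‖w‖ ^ 2) := by
  rw [← map_sub, ← map_sub, add_sub_cancel_left, add_sub_cancel_left]
  unfold unitv
  rw [gramArea_proj_add he _ _ hw, gramArea_fan a b D t₁ t₂ ht]
  · simp only [inner_add_left, real_inner_smul_left, ha, hb]; ring
  · simp only [inner_add_left, real_inner_smul_left, ha, hb]; ring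

/-- The piece of a sweep. -/
def sweepPiece (e a b p₀ : E3) (w : ℝ → E3) (R : ℝ → ℝ) (L t₁ t₂ : ℝ) : Set E3 :=
  {x : E3 | ∃ τ ∈ Set.Icc t₁ t₂, ∃ ρ ∈ Set.Icc 0 (R τ), ∃ s : ℝ, abs s ≤ L ∧
    x = p₀ + ρ • (a + τ • b) + s • (e + w τ)}

theorem sweepPiece_subset {e a b p₀ : E3} {α β : ℝ} {w : ℝ → E3} {lam : ℝ → ℝ}
    (hlam : ContinuousOn lam (Set.Icc α β))
    (hw' : ∀ t ∈ Set.Icc α β, HasDerivWithinAt w (lam t • (a + t • b)) (Set.Icc α β) t)
    {M : ℝ} (hM : ∀ t ∈ Set.Icc α β, |lam t| ≤ M) {t₁ t₂ : ℝ} (h1 : α ≤ t₁) (h2 : t₂ ≤ β)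
    (ht : t₁ < t₂) {c : ℝ} (hc : c ∈ Set.Icc t₁ t₂) {R : ℝ → ℝ} {Rm L C : ℝ} (hL : 0 < L)
    (hRm : ∀ τ ∈ Set.Icc t₁ t₂, R τ ≤ Rm) (hRm0 : 0 ≤ Rm) (hC : 0 < C) (hCL : L * M ≤ C) :
    ∀ x ∈ sweepPiece e a b p₀ w R L t₁ t₂, ∃ X ∈ convexHull ℝ {apex a b p₀ t₁ t₂ C,
      apex a b p₀ t₁ t₂ C + (Rm + 3 * C * (t₂ - t₁)) • (a + t₁ • b),
      apex a b p₀ t₁ t₂ C + (Rm + 3 * C * (t₂ - t₁)) • (a + t₂ • b)}, ∃ s : ℝ,
      x = X + s • (e + w c) := by
  rintro x ⟨τ, hτ, ρ, hρ, s, hs, rfl⟩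
  obtain ⟨x', y', hxy, hx, hy1, hy2⟩ := increment_decomp hlam hw' hM h1 h2 hc hτ
  have hh : 0 < t₂ - t₁ := by linarith
  set h := t₂ - t₁ with hdef
  refine ⟨p₀ + (ρ + s * x') • a + (ρ * τ + s * y') • b, ?_, s, ?_⟩
  · apply mem_bounding_triangle a b p₀ ht hC hRm0
    · have : s * x' ≤ C * h := by
        calc s * x' ≤ |s * x'| := le_abs_self _
          _ = |s| * |x'| := abs_mul _ _
          _ ≤ L * (M * h) := mul_le_mul hs hx (abs_nonneg _) hL.le
          _ = L * M * h := by ring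
          _ ≤ C * h := mul_le_mul_of_nonneg_right hCL hh.le
      have := hRm τ hτ
      rw [← hdef]
      linarith [hρ.2]
    · have h3 : |s * (y' - t₁ * x')| ≤ C * h ^ 2 := by
        rw [abs_mul]
        calc |s| * |y' - t₁ * x'| ≤ L * (M * h ^ 2) := mul_le_mul hs hy1 (abs_nonneg _) hL.le
          _ = L * M * h ^ 2 := by ring
          _ ≤ C * h ^ 2 := mul_le_mul_of_nonneg_right hCL (by positivity)
      have h4 := neg_le_of_abs_le h3
      have h5 : 0 ≤ ρ * (τ - t₁) := mul_nonneg hρ.1 (by linarith [hτ.1])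
      rw [← hdef]
      nlinarith [h4, h5]
    · have h3 : |s * (y' - t₂ * x')| ≤ C * h ^ 2 := by
        rw [abs_mul]
        calc |s| * |y' - t₂ * x'| ≤ L * (M * h ^ 2) := mul_le_mul hs hy2 (abs_nonneg _) hL.le
          _ = L * M * h ^ 2 := by ring
          _ ≤ C * h ^ 2 := mul_le_mul_of_nonneg_right hCL (by positivity)
      have h4 := le_of_abs_le h3
      have h5 : 0 ≤ ρ * (t₂ - τ) := mul_nonneg hρ.1 (by linarith [hτ.2])
      rw [← hdef]
      nlinarith [h4, h5]
  · have : w τ = w c + (x' • a + y' • b) := by rw [← hxy]; abel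
    rw [this]
    module

theorem fan_subset_sweepPiece {e a b p₀ : E3} {w : ℝ → E3} {t₁ t₂ : ℝ} (ht : t₁ < t₂)
    {R : ℝ → ℝ} {r L : ℝ} (hL : 0 < L) (hr0 : 0 ≤ r) (hr : ∀ τ ∈ Set.Icc t₁ t₂, r ≤ R τ) :
    convexHull ℝ {p₀, p₀ + r • (a + t₁ • b), p₀ + r • (a + t₂ • b)} ⊆
      sweepPiece e a b p₀ w R L t₁ t₂ := by
  rw [convexHull_triple_eq_image]
  rintro _ ⟨z, ⟨h0, h1, h2⟩, rfl⟩
  simp only [add_sub_cancel_left]
  by_cases hs : z 0 + z 1 = 0
  · have hz0 : z 0 = 0 := by linarith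
    have hz1 : z 1 = 0 := by linarith
    refine ⟨t₁, ⟨le_rfl, ht.le⟩, 0, ⟨le_rfl, hr0.trans (hr t₁ ⟨le_rfl, ht.le⟩)⟩, 0, ?_, ?_⟩
    · simpa using hL.le
    · rw [hz0, hz1]; simp
  · have hpos : 0 < z 0 + z 1 := lt_of_le_of_ne (by linarith) (Ne.symm hs)
    have hτ : (z 0 * t₁ + z 1 * t₂) / (z 0 + z 1) ∈ Set.Icc t₁ t₂ := by
      constructor
      · rw [le_div_iff₀ hpos]; nlinarith
      · rw [div_le_iff₀ hpos]; nlinarith
    refine ⟨(z 0 * t₁ + z 1 * t₂) / (z 0 + z 1), hτ, r * (z 0 + z 1), ⟨by positivity, ?_⟩, 0, ?_, ?_⟩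
    · refine le_trans ?_ (hr _ hτ)
      nlinarith
    · simpa using hL.le
    · have h5 : r * (z 0 + z 1) * ((z 0 * t₁ + z 1 * t₂) / (z 0 + z 1)) =
          r * (z 0 * t₁ + z 1 * t₂) := by
        field_simp
      have h6 : (r * (z 0 + z 1)) • (a + ((z 0 * t₁ + z 1 * t₂) / (z 0 + z 1)) • b) =
          (r * (z 0 + z 1)) • a + (r * (z 0 * t₁ + z 1 * t₂)) • b := by
        rw [smul_add, smul_smul, h5]
      rw [zero_smul, add_zero, h6]
      module

end Crest.Agent.R211
end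

-- ▼ part R211/SweepAnalytic

/-! Analytic part of S0328. -/

set_option autoImplicit false
open MeasureTheory
open scoped ENNReal

namespace Crest.Agent.R211

theorem piece_scalar {κ Rc sq fτ fc D rm ε₁ ε₂ B h : ℝ} (hfc : fc = Rc ^ 2 / (2 * sq))
    (hsq : 1 ≤ sq) (hh : 0 < h) (hRc0 : 0 ≤ Rc) (hRcB : Rc ≤ B) (hε₁ : 0 < ε₁) (hε₁1 : ε₁ ≤ 1)
    (hε₁2 : ε₁ * (4 * B + 4) ≤ ε₂) (hclose : |fc - fτ| < ε₂ / 2)
    (hD1 : Rc ≤ D) (hD2 : D ≤ Rc + 2 * ε₁) (hr1 : rm ≤ Rc) (hr2 : Rc - ε₁ ≤ rm) (hr0 : 0 ≤ rm) :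
    h * (fτ - ε₂) ≤ rm ^ 2 * h / (2 * sq) ∧ D ^ 2 * h / (2 * sq) ≤ h * (fτ + ε₂) := by
  have hgen : ∀ y : ℝ, |y - Rc ^ 2| ≤ ε₂ →
      h * (fτ - ε₂) ≤ y * h / (2 * sq) ∧ y * h / (2 * sq) ≤ h * (fτ + ε₂) := by
    intro y hy
    have h1 := abs_lt.mp hclose
    have h2 : |y / (2 * sq) - fc| ≤ ε₂ / 2 := by
      rw [hfc, ← sub_div, abs_div, abs_of_pos (show 0 < 2 * sq by linarith),
        div_le_iff₀ (by linarith)]
      have h5 : 0 ≤ ε₂ := (abs_nonneg _).trans hy
      nlinarith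
    have h3 := abs_le.mp h2
    have h4 : y * h / (2 * sq) = h * (y / (2 * sq)) := by ring
    rw [h4]
    constructor
    · apply mul_le_mul_of_nonneg_left _ hh.le
      linarith [h1.1, h1.2, h3.1, h3.2]
    · apply mul_le_mul_of_nonneg_left _ hh.le
      linarith [h1.1, h1.2, h3.1, h3.2]
  constructor
  · apply (hgen _ _).1
    rw [abs_sub_comm, abs_of_nonneg (by nlinarith)]
    have h3 : Rc ^ 2 - rm ^ 2 = (Rc - rm) * (Rc + rm) := by ring
    rw [h3]
    have h4 : (Rc - rm) * (Rc + rm) ≤ ε₁ * (2 * B) := by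
      apply mul_le_mul (by linarith) (by linarith) (by linarith) hε₁.le
    nlinarith
  · apply (hgen _ _).2
    rw [abs_of_nonneg (by nlinarith)]
    have h1 : D ^ 2 ≤ (Rc + 2 * ε₁) ^ 2 := pow_le_pow_left₀ (by linarith) hD2 2
    nlinarith

theorem sweep_analytic {κ : ℝ} (hκpos : 0 < κ) {α β : ℝ} (hαβ : α < β) {R : ℝ → ℝ}
    (hR : ContinuousOn R (Set.Icc α β)) (hR0 : ∀ t ∈ Set.Icc α β, 0 ≤ R t)
    {W : ℝ → ℝ} (hW : ContinuousOn W (Set.Icc α β)) (hW0 : ∀ t, 0 ≤ W t)
    {C : ℝ} (hCpos : 0 < C) {η : ℝ} (hη : 0 < η) :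
    ∃ δ : ℝ, 0 < δ ∧ ∀ (N : ℕ) (t : Fin (N + 1) → ℝ) (c : Fin N → ℝ),
      StrictMono t → t 0 = α → t (Fin.last N) = β →
      (∀ i : Fin N, t i.succ - t i.castSucc ≤ δ) →
      (∀ i : Fin N, t i.castSucc ≤ c i ∧ c i ≤ t i.succ) →
      ∃ (Rm rm : Fin N → ℝ), (∀ i, 0 ≤ Rm i) ∧
        (∀ i, ∀ τ ∈ Set.Icc (t i.castSucc) (t i.succ), R τ ≤ Rm i) ∧
        (∀ i, 0 ≤ rm i) ∧ (∀ i, rm i ≤ Rm i) ∧
        (∀ i, ∀ τ ∈ Set.Icc (t i.castSucc) (t i.succ), rm i ≤ R τ) ∧
        ∀ X : Fin N → ℝ,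
          (∀ i, κ * (rm i ^ 2 * (t i.succ - t i.castSucc) / (2 * Real.sqrt (1 + W (c i)))) ≤ X i) →
          (∀ i, X i ≤ κ * ((Rm i + 3 * C * (t i.succ - t i.castSucc)) ^ 2 *
            (t i.succ - t i.castSucc) / (2 * Real.sqrt (1 + W (c i))))) →
          |∑ i, X i - κ * ∫ τ in α..β, R τ ^ 2 / (2 * Real.sqrt (1 + W τ))| ≤ η := by
  set f : ℝ → ℝ := fun τ => R τ ^ 2 / (2 * Real.sqrt (1 + W τ)) with hf
  have hfc : ContinuousOn f (Set.Icc α β) := by
    apply ContinuousOn.div (hR.pow 2)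
    · apply continuousOn_const.mul
      exact (continuousOn_const.add hW).sqrt
    · intro x _
      have := hW0 x
      positivity
  obtain ⟨B, hB⟩ := isCompact_Icc.exists_bound_of_continuousOn hR
  have hα : α ∈ Set.Icc α β := ⟨le_rfl, hαβ.le⟩
  have hB0 : 0 ≤ B := (norm_nonneg _).trans (hB α hα)
  have hB' : ∀ t ∈ Set.Icc α β, R t ≤ B := fun t ht => by
    have := hB t ht; rw [Real.norm_eq_abs] at this; exact (le_abs_self _).trans this
  have hβα : 0 < β - α := by linarith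
  obtain ⟨ε₂, hε₂pos, hε₂⟩ : ∃ ε₂ : ℝ, 0 < ε₂ ∧ κ * (ε₂ * (β - α)) = η :=
    ⟨η / (κ * (β - α)), by positivity, by field_simp⟩
  obtain ⟨ε₁, hε₁pos, hε₁1, hε₁2⟩ : ∃ ε₁ : ℝ, 0 < ε₁ ∧ ε₁ ≤ 1 ∧ ε₁ * (4 * B + 4) ≤ ε₂ := by
    refine ⟨min 1 (ε₂ / (4 * B + 4)), lt_min one_pos (by positivity), min_le_left _ _, ?_⟩
    have : min 1 (ε₂ / (4 * B + 4)) ≤ ε₂ / (4 * B + 4) := min_le_right _ _
    rwa [le_div_iff₀ (by positivity)] at this
  have hUR := isCompact_Icc.uniformContinuousOn_of_continuous hR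
  have hUf := isCompact_Icc.uniformContinuousOn_of_continuous hfc
  rw [Metric.uniformContinuousOn_iff] at hUR hUf
  obtain ⟨δR, hδR, hUR⟩ := hUR ε₁ hε₁pos
  obtain ⟨δf, hδf, hUf⟩ := hUf (ε₂ / 2) (by positivity)
  refine ⟨min (δR / 2) (min (δf / 2) (ε₁ / (3 * C))), by positivity, ?_⟩
  intro N t c ht h0 hN hmesh hc
  have hmeshR : ∀ i : Fin N, t i.succ - t i.castSucc < δR := fun i => by
    have := (hmesh i).trans (min_le_left _ _); linarith
  have hmeshf : ∀ i : Fin N, t i.succ - t i.castSucc < δf := fun i => by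
    have := (hmesh i).trans ((min_le_right _ _).trans (min_le_left _ _)); linarith
  have hmeshC : ∀ i : Fin N, 3 * C * (t i.succ - t i.castSucc) ≤ ε₁ := fun i => by
    have := (hmesh i).trans ((min_le_right _ _).trans (min_le_right _ _))
    rw [le_div_iff₀ (by positivity)] at this
    linarith
  have hlt : ∀ i : Fin N, t i.castSucc < t i.succ := fun i => ht (Fin.castSucc_lt_succ)
  have hsub : ∀ i : Fin N, Set.Icc (t i.castSucc) (t i.succ) ⊆ Set.Icc α β := fun i =>
    Set.Icc_subset_Icc (by rw [← h0]; exact ht.monotone (Fin.zero_le _))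
      (by rw [← hN]; exact ht.monotone (Fin.le_last _))
  have hcm : ∀ i : Fin N, c i ∈ Set.Icc (t i.castSucc) (t i.succ) := fun i => hc i
  have hcm' : ∀ i : Fin N, c i ∈ Set.Icc α β := fun i => hsub i (hcm i)
  have hdist : ∀ i : Fin N, ∀ τ ∈ Set.Icc (t i.castSucc) (t i.succ), ∀ δ' : ℝ,
      t i.succ - t i.castSucc < δ' → dist (c i) τ < δ' := by
    intro i τ hτ δ' hδ'
    rw [Real.dist_eq, abs_lt]
    constructor <;> linarith [(hcm i).1, (hcm i).2, hτ.1, hτ.2]
  have hRclose : ∀ i : Fin N, ∀ τ ∈ Set.Icc (t i.castSucc) (t i.succ),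
      |R (c i) - R τ| < ε₁ := fun i τ hτ => by
    have := hUR (c i) (hcm' i) τ (hsub i hτ) (hdist i τ hτ _ (hmeshR i))
    rwa [Real.dist_eq] at this
  have hfclose : ∀ i : Fin N, ∀ τ ∈ Set.Icc (t i.castSucc) (t i.succ),
      |f (c i) - f τ| < ε₂ / 2 := fun i τ hτ => by
    have := hUf (c i) (hcm' i) τ (hsub i hτ) (hdist i τ hτ _ (hmeshf i))
    rwa [Real.dist_eq] at this
  have hRc0 : ∀ i, 0 ≤ R (c i) := fun i => hR0 _ (hcm' i)
  refine ⟨fun i => R (c i) + ε₁, fun i => max (R (c i) - ε₁) 0, ?_, ?_, ?_, ?_, ?_, ?_⟩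
  · intro i; have := hRc0 i; linarith
  · intro i τ hτ
    have := (abs_lt.mp (hRclose i τ hτ)).1
    linarith
  · intro i; exact le_max_right _ _
  · intro i; have := hRc0 i; exact max_le (by linarith) (by linarith)
  · intro i τ hτ
    have := (abs_lt.mp (hRclose i τ hτ)).2
    exact max_le (by linarith) (hR0 _ (hsub i hτ))
  · intro X hX1 hX2
    have key : ∀ i, ∀ τ ∈ Set.Icc (t i.castSucc) (t i.succ),
        (t i.succ - t i.castSucc) * (f τ - ε₂) ≤
          (max (R (c i) - ε₁) 0) ^ 2 * (t i.succ - t i.castSucc) /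
            (2 * Real.sqrt (1 + W (c i))) ∧
        (R (c i) + ε₁ + 3 * C * (t i.succ - t i.castSucc)) ^ 2 * (t i.succ - t i.castSucc) /
            (2 * Real.sqrt (1 + W (c i))) ≤ (t i.succ - t i.castSucc) * (f τ + ε₂) := by
      intro i τ hτ
      have hpos : 0 < t i.succ - t i.castSucc := by linarith [hlt i]
      have h1 := hmeshC i
      have h2 : 0 < 3 * C * (t i.succ - t i.castSucc) := by positivity
      apply piece_scalar (fc := f (c i)) (κ := κ) (Rc := R (c i)) (ε₁ := ε₁) (B := B) rfl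
      · rw [Real.one_le_sqrt]; linarith [hW0 (c i)]
      · exact hpos
      · exact hRc0 i
      · exact hB' _ (hcm' i)
      · exact hε₁pos
      · exact hε₁1
      · exact hε₁2
      · exact hfclose i τ hτ
      · linarith
      · linarith
      · exact max_le (by linarith) (hRc0 i)
      · exact le_max_left _ _
      · exact le_max_right _ _
    have hr := riemann_estimate f hfc N t ht h0 hN (fun i => X i / κ) ε₂
      (fun i τ hτ => by
        have h1 := (key i τ hτ).1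
        refine h1.trans ?_
        rw [le_div_iff₀ hκpos]
        have h2 := hX1 i
        linarith)
      (fun i τ hτ => by
        have h1 := (key i τ hτ).2
        refine le_trans ?_ h1
        rw [div_le_iff₀ hκpos]
        have h2 := hX2 i
        linarith)
    have h1 : ∑ i, X i - κ * ∫ τ in α..β, f τ = κ * (∑ i, X i / κ - ∫ τ in α..β, f τ) := by
      rw [mul_sub, Finset.mul_sum]
      congr 1
      apply Finset.sum_congr rfl
      intro i _
      field_simp
    rw [h1, abs_mul, abs_of_pos hκpos, ← hε₂]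
    exact mul_le_mul_of_nonneg_left hr hκpos.le

end Crest.Agent.R211
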